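import Vale.Agent.P366.H247.Bd

/-! P366, class E1: the divergence theorem for the complement of disjoint balls. -/

set_option linter.all false

open MeasureTheory Metric Filter Topology Set
open scoped ContDiff ENNReal RealInnerProductSpace

noncomputable section
namespace Vale.Agent.H247E
open Vale.Agent.P366.Stmt Vale.Agent.P366.T2
open Vale.Agent.P366 (sphM sphI flux dvg norm_smul_sph)

variable {n : ℕ}

lemma dvg_eq {W : Fin n → E n → ℝ} (hW : ∀ i, Smooth (W i)) (x : E n) :
    dvg W x = ∑ i, pd i (W i) x := by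
  unfold dvg
  refine Finset.sum_congr rfl fun i _ => ?_
  rw [Vale.Agent.P366.pd_eq_of_smooth (hW i)]

lemma dvg_cont {W : Fin n → E n → ℝ} (hW : ∀ i, Smooth (W i)) : Continuous (dvg W) := by
  unfold dvg
  refine continuous_finsetSum _ fun i _ => ?_
  have h1 : Smooth (P366.pd i (W i)) := by
    rw [← Vale.Agent.P366.pd_eq_of_smooth (hW i)]
    exact smooth_pd' (hW i) i
  exact ContDiff.continuous h1

/-- the total divergence of a compactly supported field vanishes -/
lemma int_dvg {W : Fin n → E n → ℝ} (hW : ∀ i, Smooth (W i))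
    {C : ℝ} (hC : ∀ i x, C < ‖x‖ → W i x = 0) :
    Integrable (dvg W) ∧ ∫ x, dvg W x = 0 := by
  have hcs : ∀ i, HasCompactSupport (W i) := fun i =>
    HasCompactSupport.intro (isCompact_closedBall (0 : E n) C) fun x hx => hC i x (by
      simpa using hx)
  have hi : ∀ i, Integrable (fun x => P366.pd i (W i) x) := by
    intro i
    have h1 : Smooth (P366.pd i (W i)) := by
      rw [← Vale.Agent.P366.pd_eq_of_smooth (hW i)]
      exact smooth_pd' (hW i) i
    exact (ContDiff.continuous h1).integrable_of_hasCompactSupport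
      ((hcs i).fderiv_apply (𝕜 := ℝ) _)
  constructor
  · unfold dvg
    exact integrable_finsetSum _ fun i _ => hi i
  · unfold dvg
    rw [integral_finsetSum _ fun i _ => hi i]
    refine Finset.sum_eq_zero fun i _ => ?_
    rw [← Vale.Agent.P366.T1.integral_pd_eq_zero ((hW i).of_le (by simp)) (hcs i) i]
    rw [Vale.Agent.P366.pd_eq_of_smooth (hW i)]

lemma ball0 [Nontrivial (E n)] {W : Fin n → E n → ℝ} (hW : ∀ i, Smooth (W i)) {r : ℝ}
    (hr : 0 < r) : ∫ x in closedBall (0 : E n) r, dvg W x = flux W r := by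
  let b : ContDiffBump (0 : E n) := ⟨r + 1, r + 2, by linarith, by linarith⟩
  set W' : Fin n → E n → ℝ := fun i x => b x * W i x with hW'd
  have hW' : ∀ i, Smooth (W' i) := fun i => b.contDiff.mul (hW i)
  have hC : ∀ i x, r + 2 < ‖x‖ → W' i x = 0 := by
    intro i x hx
    simp only [hW'd]
    rw [b.zero_of_le_dist (by rw [dist_zero_right]; exact hx.le), zero_mul]
  have h1 := Vale.Agent.P366.integral_dvg_outside (b := 0) le_rfl
    (fun i => ((hW' i).of_le (by simp)).contDiffOn) hC hr
  obtain ⟨hint, h2⟩ := int_dvg hW' hC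
  have hc : (closedBall (0 : E n) r)ᶜ = {x : E n | r < ‖x‖} := by
    ext x; simp
  have h3 := integral_add_compl (measurableSet_closedBall (x := (0 : E n)) (ε := r)) hint
  rw [hc, h1, h2] at h3
  have h4 : ∫ x in closedBall (0 : E n) r, dvg W' x = ∫ x in closedBall (0 : E n) r, dvg W x := by
    refine setIntegral_congr_fun measurableSet_closedBall fun x hx => ?_
    show dvg W' x = dvg W x
    unfold dvg
    refine Finset.sum_congr rfl fun i _ => ?_
    have h5 : W' i =ᶠ[𝓝 x] W i := by
      have h6 : ball (0 : E n) (r + 1) ∈ 𝓝 x := isOpen_ball.mem_nhds (by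
        rw [mem_closedBall, dist_zero_right] at hx
        rw [mem_ball, dist_zero_right]; linarith)
      filter_upwards [h6] with y hy
      simp only [hW'd]
      rw [b.one_of_mem_closedBall (ball_subset_closedBall hy), one_mul]
    unfold P366.pd
    rw [h5.fderiv_eq]
  have h5 : flux W' r = flux W r := by
    unfold flux
    congr 1
    refine Vale.Agent.P366.sphI_congr hr.le fun x hx => ?_
    refine Finset.sum_congr rfl fun i _ => ?_
    simp only [hW'd]
    rw [b.one_of_mem_closedBall (by
      rw [mem_closedBall, dist_zero_right, hx]; show r ≤ r + 1; linarith), one_mul]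
  rw [h4, h5] at h3
  linarith

/-- the divergence theorem on a ball -/
lemma ballc [Nontrivial (E n)] {W : Fin n → E n → ℝ} (hW : ∀ i, Smooth (W i)) (c : E n) {r : ℝ}
    (hr : 0 < r) : ∫ x in closedBall c r, dvg W x = flux (fun i y => W i (c + y)) r := by
  have hW2 : ∀ i, Smooth (fun y => W i (c + y)) := fun i =>
    ContDiff.comp (hW i) (contDiff_const.add contDiff_id)
  rw [← ball0 hW2 hr]
  have h1 := (measurePreserving_add_left (volume : Measure (E n)) c).setIntegral_preimage_emb
    (measurableEmbedding_addLeft c) (dvg W) (closedBall c r)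
  rw [← h1]
  have h2 : (fun x => c + x) ⁻¹' closedBall c r = closedBall (0 : E n) r := by
    ext x
    simp [mem_closedBall, dist_eq_norm]
  rw [h2]
  refine setIntegral_congr_fun measurableSet_closedBall fun x _ => ?_
  show dvg W (c + x) = dvg (fun i y => W i (c + y)) x
  unfold dvg P366.pd
  refine Finset.sum_congr rfl fun i _ => ?_
  rw [fderiv_comp_add_left]

section

variable {N : ℕ} (c : Fin N → E n) (r : Fin N → ℝ)

/-- the union of the balls -/
def balls : Set (E n) := ⋃ a, closedBall (c a) (r a)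

lemma meas_balls : MeasurableSet (balls c r) :=
  MeasurableSet.iUnion fun a => measurableSet_closedBall

variable {c r}

lemma int_balls [Nontrivial (E n)] (hr : ∀ a, 0 < r a)
    (hd : ∀ a b, a ≠ b → r a + r b < ‖c a - c b‖) {W : Fin n → E n → ℝ}
    (hW : ∀ i, Smooth (W i)) :
    ∫ x in balls c r, dvg W x = ∑ a, flux (fun i y => W i (c a + y)) (r a) := by
  unfold balls
  rw [integral_iUnion_fintype (fun a => measurableSet_closedBall)]
  · exact Finset.sum_congr rfl fun a _ => ballc hW (c a) (hr a)
  · intro a b hab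
    refine closedBall_disjoint_closedBall ?_
    rw [dist_eq_norm]
    exact hd a b hab
  · intro a
    exact (dvg_cont hW).continuousOn.integrableOn_compact (isCompact_closedBall _ _)

/-- a field whose divergence is nonnegative outside the balls -/
theorem flux_mono [Nontrivial (E n)] (hr : ∀ a, 0 < r a)
    (hd : ∀ a b, a ≠ b → r a + r b < ‖c a - c b‖) {W : Fin n → E n → ℝ}
    (hW : ∀ i, Smooth (W i)) (hdiv : ∀ x, (∀ a, r a < ‖x - c a‖) → 0 ≤ ∑ i, pd i (W i) x)
    {R : ℝ} (hR : ∀ a, ‖c a‖ + r a ≤ R) (hR0 : 0 < R) :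
    ∑ a, flux (fun i y => W i (c a + y)) (r a) ≤ flux W R := by
  rw [← int_balls hr hd hW, ← ball0 hW hR0]
  have hsub : balls c r ⊆ closedBall (0 : E n) R := by
    refine iUnion_subset fun a x hx => ?_
    rw [mem_closedBall, dist_eq_norm] at hx
    rw [mem_closedBall, dist_zero_right]
    have h1 : ‖x‖ ≤ ‖x - c a‖ + ‖c a‖ := by
      have := norm_add_le (x - c a) (c a)
      simpa using this
    linarith [hR a]
  have hint : IntegrableOn (dvg W) (closedBall (0 : E n) R) :=
    (dvg_cont hW).continuousOn.integrableOn_compact (isCompact_closedBall _ _)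
  have h2 : ∫ x in closedBall (0 : E n) R, dvg W x =
      (∫ x in balls c r, dvg W x) + (∫ x in closedBall (0 : E n) R \ balls c r, dvg W x) := by
    rw [integral_diff (meas_balls c r) hint hsub]
    ring
  rw [h2]
  have h3 : 0 ≤ ∫ x in closedBall (0 : E n) R \ balls c r, dvg W x := by
    refine setIntegral_nonneg (measurableSet_closedBall.diff (meas_balls c r)) fun x hx => ?_
    rw [dvg_eq hW]
    refine hdiv x fun a => ?_
    by_contra hc
    push Not at hc
    refine hx.2 (mem_iUnion.2 ⟨a, ?_⟩)
    rw [mem_closedBall, dist_eq_norm]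
    exact hc
  linarith

/-- a compactly supported field -/
theorem int_out [Nontrivial (E n)] (hr : ∀ a, 0 < r a)
    (hd : ∀ a b, a ≠ b → r a + r b < ‖c a - c b‖) {W : Fin n → E n → ℝ}
    (hW : ∀ i, Smooth (W i)) {C : ℝ} (hC : ∀ i x, C < ‖x‖ → W i x = 0) :
    ∫ x in {x : E n | ∀ a, r a ≤ ‖x - c a‖}, dvg W x =
      -∑ a, flux (fun i y => W i (c a + y)) (r a) := by
  rw [← int_balls hr hd hW]
  obtain ⟨hint, h0⟩ := int_dvg hW hC
  have h1 := integral_add_compl (meas_balls c r) hint
  rw [h0] at h1
  have h2 : ∫ x in {x : E n | ∀ a, r a ≤ ‖x - c a‖}, dvg W x = ∫ x in (balls c r)ᶜ, dvg W x := by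
    refine setIntegral_congr_set ?_
    have hnull : (volume : Measure (E n)) (⋃ a, sphere (c a) (r a)) = 0 := by
      rw [measure_iUnion_null_iff]
      intro a
      exact Measure.addHaar_sphere_of_ne_zero volume (c a) (hr a).ne'
    have hsub1 : (balls c r)ᶜ ⊆ {x : E n | ∀ a, r a ≤ ‖x - c a‖} := by
      intro x hx a
      by_contra hc
      push Not at hc
      refine hx (mem_iUnion.2 ⟨a, ?_⟩)
      rw [mem_closedBall, dist_eq_norm]
      exact hc.le
    refine ((LE.le.eventuallyLE hsub1).antisymm ?_).symm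
    rw [ae_le_set]
    refine measure_mono_null ?_ hnull
    rintro x ⟨hx1, hx2⟩
    rw [notMem_compl_iff] at hx2
    obtain ⟨a, ha⟩ := mem_iUnion.1 hx2
    refine mem_iUnion.2 ⟨a, ?_⟩
    rw [mem_closedBall, dist_eq_norm] at ha
    rw [mem_sphere_iff_norm]
    exact le_antisymm ha (hx1 a)
  rw [h2]
  linarith

end

end Vale.Agent.H247E
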