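import Vale.Agent.P366.H247.Sph

/-! P366, class E1: the null expansion and the flux density on a boundary sphere. -/

set_option linter.all false

open MeasureTheory Metric Filter Topology Set
open scoped ContDiff ENNReal RealInnerProductSpace

noncomputable section
namespace Vale.Agent.H247E
open Vale.Agent.P366.Stmt Vale.Agent.P366.T2

variable {n : ℕ}

/-- `f` and `F` are constant on the sphere of radius `r` with normal `ν` through `x`. -/
structure AtBd (f F : E n → ℝ) (x : E n) (ν : Fin n → ℝ) (r a b : ℝ) : Prop where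
  unit : ∑ i, ν i * ν i = 1
  r_pos : 0 < r
  b_pos : 0 < b
  pf : ∀ i, pd i f x = a * ν i
  pF : ∀ i, pd i F x = b * ν i
  Hf : L f x - ∑ i, ∑ j, H f i j x * ν i * ν j = (n - 1) * a / r
  HF : L F x - ∑ i, ∑ j, H F i j x * ν i * ν j = (n - 1) * b / r

section

variable {f F : E n → ℝ} {x : E n} {ν : Fin n → ℝ} {r a b : ℝ} (h : AtBd f F x ν r a b)
include h

lemma AtBd.w : W2 f x = 1 + a ^ 2 := by
  have := sum_pd_sq f x
  simp only [h.pf] at this
  have e : ∀ k, a * ν k * (a * ν k) = a ^ 2 * (ν k * ν k) := fun k => by ring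
  simp only [e, ← Finset.mul_sum, h.unit] at this
  linarith

lemma AtBd.pp (A : Fin n → Fin n → ℝ) : ∑ i, pd i f x * ∑ j, pd j f x * A i j =
    a ^ 2 * ∑ i, ∑ j, A i j * ν i * ν j := by
  rw [Finset.mul_sum]
  refine Finset.sum_congr rfl fun i _ => ?_
  rw [Finset.mul_sum, Finset.mul_sum]
  refine Finset.sum_congr rfl fun j _ => ?_
  rw [h.pf, h.pf]
  ring

lemma AtBd.cov : covNorm (gF f) (fun j => pd j F) x = b / √(W2 f x) := by
  have hW := W2_pos f x
  have hw := h.w
  unfold covNorm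
  have e1 : ∑ i, ∑ j, up (gF f) i j x * pd i F x * pd j F x = b ^ 2 / W2 f x := by
    rw [covNorm_sq (fun j => pd j F)]
    have e2 : ∑ i, pd i F x ^ 2 = b ^ 2 := by
      simp only [h.pF]
      have e : ∀ k, (b * ν k) ^ 2 = b ^ 2 * (ν k * ν k) := fun k => by ring
      simp only [e, ← Finset.mul_sum, h.unit]
      ring
    have e3 : ∑ i, pd i f x * pd i F x = a * b := by
      simp only [h.pf, h.pF]
      have e : ∀ k, a * ν k * (b * ν k) = a * b * (ν k * ν k) := fun k => by ring
      simp only [e, ← Finset.mul_sum, h.unit]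
      ring
    rw [e2, e3]
    field_simp
    rw [hw]
    ring
  rw [e1, Real.sqrt_div (sq_nonneg b), Real.sqrt_sq h.b_pos.le]

lemma AtBd.nrm (i : Fin n) : P366.Stmt.nrm (gF f) F i x = ν i / √(W2 f x) := by
  have hW := W2_ne f x
  have hw := h.w
  have hp := sqrtW_pos f x
  have hq := sqrtW_sq f x
  have hb := h.b_pos.ne'
  unfold P366.Stmt.nrm
  rw [h.cov, up_mul]
  have e3 : ∑ i, pd i f x * pd i F x = a * b := by
    simp only [h.pf, h.pF]
    have e : ∀ k, a * ν k * (b * ν k) = a * b * (ν k * ν k) := fun k => by ring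
    simp only [e, ← Finset.mul_sum, h.unit]
    ring
  rw [e3, h.pf, h.pF]
  have e4 : b * ν i - a * ν i * (a * b) / W2 f x = b * ν i / W2 f x := by
    field_simp
    rw [hw]; ring
  rw [e4]
  have key : ∀ q w : ℝ, 0 < q → q ^ 2 = w → b * ν i / w / (b / q) = ν i / q := by
    intro q w hq0 hqw
    subst hqw
    field_simp
  exact key _ _ hp hq

lemma AtBd.trS (A : Field n) : P366.Stmt.trS (gF f) A F x =
    ∑ i, A x i i - ∑ i, ∑ j, A x i j * ν i * ν j := by
  have hW := W2_ne f x
  have hw := h.w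
  have hp := sqrtW_pos f x
  have hq := sqrtW_sq f x
  unfold P366.Stmt.trS P366.Stmt.tr
  rw [up_dbl, h.pp]
  have e : ∑ i, ∑ j, A x i j * P366.Stmt.nrm (gF f) F i x * P366.Stmt.nrm (gF f) F j x =
      (∑ i, ∑ j, A x i j * ν i * ν j) / W2 f x := by
    rw [Finset.sum_div]
    refine Finset.sum_congr rfl fun i _ => ?_
    rw [Finset.sum_div]
    refine Finset.sum_congr rfl fun j _ => ?_
    rw [h.nrm, h.nrm]
    have : A x i j * (ν i / √(W2 f x)) * (ν j / √(W2 f x)) =
        A x i j * ν i * ν j / √(W2 f x) ^ 2 := by field_simp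
    rw [this, hq]
  rw [e]
  field_simp
  rw [hw]
  ring

/-- The null expansion of the sphere. -/
lemma AtBd.theta (hf : Smooth f) (K : Field n) : thetaPlus (gF f) K F x =
    (n - 1) / (r * √(W2 f x)) + (∑ i, K x i i - ∑ i, ∑ j, K x i j * ν i * ν j) := by
  have hW := W2_ne f x
  have hw := h.w
  have hp := sqrtW_pos f x
  have hq := sqrtW_sq f x
  have hr := h.r_pos.ne'
  have hb := h.b_pos.ne'
  unfold thetaPlus
  rw [h.trS, h.trS, h.cov]
  congr 1
  have e1 : ∀ i j, hess (gF f) F x i j = H F i j x - a * b / W2 f x * H f i j x := by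
    intro i j
    unfold hess
    have e : ∀ k, chr (gF f) k i j x * pd k F x = a * b * H f i j x / W2 f x * (ν k * ν k) := by
      intro k
      rw [chr_gF hf, h.pf, h.pF]
      ring
    simp only [e, ← Finset.mul_sum, h.unit]
    unfold H
    ring
  have e2 : ∑ i, hess (gF f) F x i i = L F x - a * b / W2 f x * L f x := by
    simp only [e1, Finset.sum_sub_distrib, ← Finset.mul_sum]
    rfl
  have e3 : ∑ i, ∑ j, hess (gF f) F x i j * ν i * ν j =
      ∑ i, ∑ j, H F i j x * ν i * ν j - a * b / W2 f x * ∑ i, ∑ j, H f i j x * ν i * ν j := by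
    have e : ∀ i j, hess (gF f) F x i j * ν i * ν j = H F i j x * ν i * ν j -
        a * b / W2 f x * (H f i j x * ν i * ν j) := by
      intro i j
      rw [e1]; ring
    simp only [e, Finset.sum_sub_distrib, ← Finset.mul_sum]
  rw [e2, e3]
  have e4 : L F x - a * b / W2 f x * L f x - (∑ i, ∑ j, H F i j x * ν i * ν j -
      a * b / W2 f x * ∑ i, ∑ j, H f i j x * ν i * ν j) =
      (n - 1) * b / r - a * b / W2 f x * ((n - 1) * a / r) := by
    rw [← h.Hf, ← h.HF]; ring
  rw [e4]
  have e5 : (n - 1) * b / r - a * b / W2 f x * ((n - 1) * a / r) = (n - 1) * b / (r * W2 f x) := by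
    field_simp
    rw [hw]; ring
  rw [e5]
  have key : ∀ q w : ℝ, 0 < q → q ^ 2 = w →
      ((n : ℝ) - 1) * b / (r * w) / (b / q) = (n - 1) / (r * q) := by
    intro q w hq0 hqw
    subst hqw
    field_simp
  exact key _ _ hp hq

/-- the flux density of `(1 + u²) Y` -/
lemma AtBd.flux (hf : Smooth f) (t : ℝ) : ∑ i, (1 + t ^ 2) * Y f i x * ν i =
    (1 + t ^ 2) * (n - 1) * a ^ 2 / (r * W2 f x) := by
  have hW := W2_ne f x
  have hr := h.r_pos.ne'
  have e : ∀ i, (1 + t ^ 2) * Y f i x * ν i = (1 + t ^ 2) / W2 f x * (a * L f x * (ν i * ν i) -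
      a * ∑ m, H f i m x * ν i * ν m) := by
    intro i
    unfold Y H247E.h
    rw [h.pf]
    have e1 : ∑ m, H f i m x * pd m f x = a * ∑ m, H f i m x * ν m := by
      rw [Finset.mul_sum]
      refine Finset.sum_congr rfl fun m _ => ?_
      rw [h.pf]; ring
    have e2 : ∑ m, H f i m x * ν i * ν m = ν i * ∑ m, H f i m x * ν m := by
      rw [Finset.mul_sum]
      exact Finset.sum_congr rfl fun m _ => by ring
    rw [e1, e2]
    field_simp
  simp only [e, ← Finset.mul_sum, Finset.sum_sub_distrib, h.unit]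
  have e3 : a * L f x * 1 - a * ∑ i, ∑ j, H f i j x * ν i * ν j = a * ((n - 1) * a / r) := by
    rw [← h.Hf]; ring
  rw [e3]
  field_simp

/-- The trace of `K` over the sphere. -/
lemma AtBd.trK {u κ : E n → ℝ} {T K : Field n} (hT : Form f u κ T K x) (ha : a ≠ 0) :
    ∑ i, K x i i - ∑ i, ∑ j, K x i j * ν i * ν j = sg f u x * ((n - 1) * a / r) := by
  have hTν : ∀ i, ∑ j, T x i j * ν j = 0 := by
    intro i
    have h1 := hT.grad i
    have e : ∀ j, T x i j * pd j f x = a * (T x i j * ν j) := fun j => by rw [h.pf]; ring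
    simp only [e, ← Finset.mul_sum] at h1
    exact (mul_eq_zero.1 h1).resolve_left ha
  have e1 : ∑ i, K x i i = sg f u x * L f x + κ x * a ^ 2 := by
    simp only [hT.eq', Finset.sum_add_distrib, ← Finset.mul_sum, sum_pd_sq, hT.tr, h.w]
    have e4 : ∑ k, H f k k x = L f x := rfl
    rw [e4]; ring
  have e2 : ∑ i, ∑ j, K x i j * ν i * ν j =
      sg f u x * (∑ i, ∑ j, H f i j x * ν i * ν j) + κ x * a ^ 2 := by
    have e : ∀ i j, K x i j * ν i * ν j = sg f u x * (H f i j x * ν i * ν j) +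
        κ x * a ^ 2 * (ν i * ν i) * (ν j * ν j) + ν i * (T x i j * ν j) := by
      intro i j
      rw [hT.eq', h.pf, h.pf]; ring
    simp only [e, Finset.sum_add_distrib, ← Finset.mul_sum, hTν, mul_zero, Finset.sum_const_zero,
      h.unit]
    rw [← Finset.sum_mul, ← Finset.mul_sum, h.unit]
    ring
  rw [e1, e2, ← h.Hf]
  ring

/-- A weakly future trapped sphere carries a large flux. -/
theorem AtBd.flux_ge (hn : 2 ≤ n) (hf : Smooth f) {u κ : E n → ℝ} {T K : Field n}
    (hT : Form f u κ T K x) (ha : a ≠ 0) (hθ : thetaPlus (gF f) K F x ≤ 0) :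
    (n - 1) / r ≤ ∑ i, (1 + u x ^ 2) * Y f i x * ν i := by
  have hp := sqrtW_pos f x
  have hr := h.r_pos
  have hn1 : (0 : ℝ) < n - 1 := by
    have : (2 : ℝ) ≤ n := by exact_mod_cast hn
    linarith
  rw [h.theta hf, h.trK hT ha] at hθ
  have e1 : (n - 1) / (r * √(W2 f x)) + sg f u x * ((n - 1) * a / r) =
      (n - 1) / (r * √(W2 f x)) * (1 + u x * a) := by
    unfold sg
    field_simp
  rw [e1] at hθ
  have h1 : 0 < (n - 1) / (r * √(W2 f x)) := by positivity
  have h2 : 1 + u x * a ≤ 0 := by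
    by_contra hc
    push Not at hc
    have := mul_pos h1 hc
    linarith
  have h3 : 1 ≤ u x ^ 2 * a ^ 2 := by nlinarith
  rw [h.flux hf, h.w]
  rw [div_le_div_iff₀ hr (by positivity)]
  have h4 : (n - 1) * (r * (1 + a ^ 2)) ≤ (n - 1) * (r * ((1 + u x ^ 2) * a ^ 2)) := by
    apply mul_le_mul_of_nonneg_left _ hn1.le
    apply mul_le_mul_of_nonneg_left _ hr.le
    nlinarith
  calc (n - 1) * (r * (1 + a ^ 2)) ≤ (n - 1) * (r * ((1 + u x ^ 2) * a ^ 2)) := h4
    _ = (1 + u x ^ 2) * (n - 1) * a ^ 2 * r := by ring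

end

end Vale.Agent.H247E
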