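import Vale.Agent.P366.T2.Area
import Vale.Agent.P366.T2.Calc
import Vale.Agent.P366.T1.A919g
import Vale.Agent.P366.T1.Core

/-! P366, class E1: first derivatives, inverse metric and Christoffel symbols of
`g = δ + df ⊗ df`. -/

set_option linter.all false

open MeasureTheory Metric Filter Topology Set
open scoped ContDiff ENNReal

noncomputable section
namespace Vale.Agent.H247E
open Vale.Agent.P366.Stmt Vale.Agent.P366.T2

variable {n : ℕ}

/-- second derivatives -/
def H (f : E n → ℝ) (i j : Fin n) (x : E n) : ℝ := pd i (pd j f) x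
/-- third derivatives -/
def T3 (f : E n → ℝ) (k i j : Fin n) (x : E n) : ℝ := pd k (H f i j) x
/-- `1 + |Df|²` -/
def W2 (f : E n → ℝ) (x : E n) : ℝ := 1 + ∑ k, pd k f x ^ 2
/-- the Laplacian -/
def L (f : E n → ℝ) (x : E n) : ℝ := ∑ k, H f k k x
/-- the Hessian applied to the gradient -/
def h (f : E n → ℝ) (i : Fin n) (x : E n) : ℝ := ∑ m, H f i m x * pd m f x
/-- the Hessian on the gradient -/
def s (f : E n → ℝ) (x : E n) : ℝ := ∑ i, h f i x * pd i f x
/-- the vector field -/
def Y (f : E n → ℝ) (i : Fin n) (x : E n) : ℝ := (pd i f x * L f x - h f i x) / W2 f x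
/-- the metric -/
def gF (f : E n → ℝ) : Field n := fun x i j => (if i = j then 1 else 0) + pd i f x * pd j f x
/-- the second fundamental form -/
def KF (f u : E n → ℝ) : Field n := fun x i j => u x * H f i j x / √(W2 f x)

lemma W2_pos (f : E n → ℝ) (x : E n) : 0 < W2 f x := by
  unfold W2
  have : 0 ≤ ∑ k, pd k f x ^ 2 := Finset.sum_nonneg fun k _ => sq_nonneg _
  linarith

lemma W2_ne (f : E n → ℝ) (x : E n) : W2 f x ≠ 0 := (W2_pos f x).ne'

lemma one_le_W2 (f : E n → ℝ) (x : E n) : 1 ≤ W2 f x := by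
  unfold W2
  have : 0 ≤ ∑ k, pd k f x ^ 2 := Finset.sum_nonneg fun k _ => sq_nonneg _
  linarith

lemma sum_pd_sq (f : E n → ℝ) (x : E n) : ∑ k, pd k f x * pd k f x = W2 f x - 1 := by
  unfold W2
  have : ∀ k, pd k f x * pd k f x = pd k f x ^ 2 := fun k => by ring
  simp only [this]; ring

/-! ### Smoothness -/

lemma smooth_pd' {f : E n → ℝ} (hf : Smooth f) (i : Fin n) : Smooth (pd i f) := by
  rw [Vale.Agent.P366.pd_eq_of_smooth hf]
  exact Vale.Agent.P366.T1.A919.smooth_pd hf i

lemma Smooth.diff {f : E n → ℝ} (hf : Smooth f) (x : E n) : DifferentiableAt ℝ f x :=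
  (ContDiff.differentiable hf (by simp)) x

lemma symm_pd' {f : E n → ℝ} (hf : Smooth f) (i j : Fin n) (x : E n) :
    pd i (pd j f) x = pd j (pd i f) x := by
  rw [Vale.Agent.P366.pd_eq_of_smooth (smooth_pd' hf j),
    Vale.Agent.P366.pd_eq_of_smooth (smooth_pd' hf i), Vale.Agent.P366.pd_eq_of_smooth hf,
    Vale.Agent.P366.pd_eq_of_smooth hf]
  exact Vale.Agent.P366.T1.A919.symm_pd hf i j x

section

variable {f : E n → ℝ} (hf : Smooth f)
include hf

lemma H_symm (i j : Fin n) (x : E n) : H f i j x = H f j i x := symm_pd' hf i j x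

lemma smooth_H (i j : Fin n) : Smooth (H f i j) := smooth_pd' (smooth_pd' hf j) i

lemma T3_symm1 (k i j : Fin n) (x : E n) : T3 f k i j x = T3 f i k j x :=
  symm_pd' (smooth_pd' hf j) k i x

lemma T3_symm2 (k i j : Fin n) (x : E n) : T3 f k i j x = T3 f k j i x := by
  unfold T3
  have : H f i j = H f j i := funext fun y => H_symm hf i j y
  rw [this]

lemma smooth_T3 (k i j : Fin n) : Smooth (T3 f k i j) := smooth_pd' (smooth_H hf i j) k

lemma smooth_W2 : Smooth (W2 f) := by
  unfold W2 Smooth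
  exact contDiff_const.add (ContDiff.sum fun k _ => (smooth_pd' hf k).pow 2)

lemma smooth_L : Smooth (L f) := by
  unfold L Smooth
  exact ContDiff.sum fun k _ => smooth_H hf k k

lemma smooth_h (i : Fin n) : Smooth (h f i) := by
  unfold h Smooth
  exact ContDiff.sum fun k _ => (smooth_H hf i k).mul (smooth_pd' hf k)

lemma smooth_s : Smooth (s f) := by
  unfold s Smooth
  exact ContDiff.sum fun k _ => (smooth_h hf k).mul (smooth_pd' hf k)

lemma smooth_Y (i : Fin n) : Smooth (Y f i) := by
  unfold Y Smooth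
  exact (((smooth_pd' hf i).mul (smooth_L hf)).sub (smooth_h hf i)).div (smooth_W2 hf)
    (fun x => W2_ne f x)

lemma smooth_gF (i j : Fin n) : Smooth (fun x => gF f x i j) := by
  unfold gF Smooth
  exact contDiff_const.add ((smooth_pd' hf i).mul (smooth_pd' hf j))

lemma smooth_sqrtW : Smooth (fun x => √(W2 f x)) := by
  unfold Smooth
  exact ContDiff.sqrt (smooth_W2 hf) (fun x => W2_ne f x)

lemma smooth_KF {u : E n → ℝ} (hu : Smooth u) (i j : Fin n) : Smooth (fun x => KF f u x i j) := by
  unfold KF Smooth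
  exact (ContDiff.mul hu (smooth_H hf i j)).div (smooth_sqrtW hf)
    (fun x => (Real.sqrt_pos.2 (W2_pos f x)).ne')

end

/-! ### The calculus of partial derivatives -/

lemma HP.eq {k : Fin n} {f : E n → ℝ} {d d' : ℝ} {x : E n} (h : HP k f d x) (e : d = d') :
    HP k f d' x := e ▸ h

lemma HP.div {k : Fin n} {f g : E n → ℝ} {d e : ℝ} {x : E n} (hf : HP k f d x)
    (hg : HP k g e x) (h0 : g x ≠ 0) :
    HP k (fun y => f y / g y) ((d * g x - f x * e) / g x ^ 2) x := by
  have := HasDerivAt.div (hf : HasDerivAt _ _ _) (hg : HasDerivAt _ _ _) (by simpa using h0)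
  simp only [zero_smul, add_zero] at this
  exact this

lemma HP.sqrt {k : Fin n} {f : E n → ℝ} {d : ℝ} {x : E n} (hf : HP k f d x)
    (h0 : f x ≠ 0) : HP k (fun y => √(f y)) (d / (2 * √(f x))) x := by
  have := HasDerivAt.sqrt (hf : HasDerivAt _ _ _) (by simpa using h0)
  simp only [zero_smul, add_zero] at this
  exact this

lemma HP.sm {f : E n → ℝ} (hf : Smooth f) (k : Fin n) (x : E n) : HP k f (pd k f x) x :=
  Vale.Agent.P366.T2.HP.of_diff (Smooth.diff hf x)

section

variable {f : E n → ℝ} (hf : Smooth f)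
include hf

lemma HP_pd (k i : Fin n) (x : E n) : HP k (pd i f) (H f k i x) x := HP.sm (smooth_pd' hf i) k x

lemma HP_H (k i j : Fin n) (x : E n) : HP k (H f i j) (T3 f k i j x) x := HP.sm (smooth_H hf i j) k x

lemma HP_W2 (k : Fin n) (x : E n) : HP k (W2 f) (2 * h f k x) x := by
  have h1 := (HP.const k 1 x).add (HP.sum (k := k) (x := x) Finset.univ
    (f := fun i y => pd i f y * pd i f y)
    (d := fun i => H f k i x * pd i f x + pd i f x * H f k i x)
    (fun i _ => (HP_pd hf k i x).mul (HP_pd hf k i x)))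
  have h2 := h1.congr (g := W2 f) (Eventually.of_forall fun y => by
    show W2 f y = 1 + ∑ i, pd i f y * pd i f y
    rw [sum_pd_sq]; ring)
  refine HP.eq h2 ?_
  unfold h
  rw [zero_add, Finset.mul_sum]
  exact Finset.sum_congr rfl fun i _ => by ring

lemma HP_L (k : Fin n) (x : E n) : HP k (L f) (∑ i, T3 f k i i x) x :=
  HP.sum (k := k) (x := x) Finset.univ (fun i _ => HP_H hf k i i x)

lemma HP_h (k i : Fin n) (x : E n) :
    HP k (h f i) (∑ m, (T3 f k i m x * pd m f x + H f i m x * H f k m x)) x :=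
  HP.sum (k := k) (x := x) Finset.univ (fun m _ => (HP_H hf k i m x).mul (HP_pd hf k m x))

lemma HP_gF (k i j : Fin n) (x : E n) :
    HP k (fun y => gF f y i j) (H f k i x * pd j f x + pd i f x * H f k j x) x := by
  have h1 := (HP.const k (if i = j then (1 : ℝ) else 0) x).add
    ((HP_pd hf k i x).mul (HP_pd hf k j x))
  exact HP.eq h1 (by ring)

end

/-! ### The inverse metric -/

lemma up_gF (f : E n → ℝ) (i j : Fin n) (x : E n) :
    up (gF f) i j x = (if i = j then 1 else 0) - pd i f x * pd j f x / W2 f x := by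
  have hW := W2_ne f x
  have h1 : (mat (gF f) x)⁻¹ =
      Matrix.of (fun i j => (if i = j then (1 : ℝ) else 0) - pd i f x * pd j f x / W2 f x) := by
    apply Matrix.inv_eq_right_inv
    ext i j
    rw [Matrix.mul_apply, Matrix.one_apply]
    show ∑ k, ((if i = k then (1 : ℝ) else 0) + pd i f x * pd k f x) *
        ((if k = j then (1 : ℝ) else 0) - pd k f x * pd j f x / W2 f x) = _
    have e : ∀ k, ((if i = k then (1 : ℝ) else 0) + pd i f x * pd k f x) *
        ((if k = j then (1 : ℝ) else 0) - pd k f x * pd j f x / W2 f x) =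
        (if i = k then (if k = j then (1 : ℝ) else 0) - pd k f x * pd j f x / W2 f x else 0) +
        (if k = j then pd i f x * pd k f x else 0) -
        pd i f x * pd j f x / W2 f x * (pd k f x * pd k f x) := by
      intro k
      split_ifs <;> ring
    simp only [e, Finset.sum_add_distrib, Finset.sum_sub_distrib, ← Finset.mul_sum, sum_pd_sq,
      Finset.sum_ite_eq, Finset.sum_ite_eq', Finset.mem_univ, if_true]
    field_simp
    ring
  unfold up
  rw [h1]
  rfl

lemma up_mul (f : E n → ℝ) (x : E n) (i : Fin n) (a : Fin n → ℝ) :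
    ∑ j, up (gF f) i j x * a j = a i - pd i f x * (∑ j, pd j f x * a j) / W2 f x := by
  have e : ∀ j, up (gF f) i j x * a j = (if i = j then a j else 0) -
      pd i f x / W2 f x * (pd j f x * a j) := by
    intro j
    rw [up_gF]
    split_ifs <;> ring
  simp only [e, Finset.sum_sub_distrib, ← Finset.mul_sum, Finset.sum_ite_eq, Finset.mem_univ,
    if_true]
  ring

lemma up_dbl (f : E n → ℝ) (x : E n) (A : Fin n → Fin n → ℝ) :
    ∑ i, ∑ j, up (gF f) i j x * A i j =
      ∑ i, A i i - (∑ i, pd i f x * ∑ j, pd j f x * A i j) / W2 f x := by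
  simp only [up_mul, Finset.sum_sub_distrib]
  congr 1
  rw [Finset.sum_div]

lemma up_pd (f : E n → ℝ) (x : E n) (i : Fin n) :
    ∑ j, up (gF f) i j x * pd j f x = pd i f x / W2 f x := by
  rw [up_mul, sum_pd_sq]
  have hW := W2_ne f x
  field_simp
  ring

lemma chr_gF {f : E n → ℝ} (hf : Smooth f) (k i j : Fin n) (x : E n) :
    chr (gF f) k i j x = H f i j x * pd k f x / W2 f x := by
  unfold chr
  have e : ∀ l, up (gF f) k l x * (pd i (fun y => gF f y j l) x + pd j (fun y => gF f y i l) x -
      pd l (fun y => gF f y i j) x) = 2 * H f i j x * (up (gF f) k l x * pd l f x) := by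
    intro l
    rw [(HP_gF hf i j l x).pd, (HP_gF hf j i l x).pd, (HP_gF hf l i j x).pd, H_symm hf j i,
      H_symm hf l i, H_symm hf l j]
    ring
  simp only [e, ← Finset.mul_sum, up_pd]
  ring

end Vale.Agent.H247E
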