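import Vale.Agent.P366.H247.Calc

/-! P366, class E1: the scalar curvature is a divergence. -/

set_option linter.all false

open MeasureTheory Metric Filter Topology Set
open scoped ContDiff ENNReal

noncomputable section
namespace Vale.Agent.H247E
open Vale.Agent.P366.Stmt Vale.Agent.P366.T2

variable {n : ℕ}

/-- `|Hess f|²` -/
def q2 (f : E n → ℝ) (x : E n) : ℝ := ∑ i, ∑ k, H f i k x * H f i k x
/-- `|Hess f (Df)|²` -/
def h2 (f : E n → ℝ) (x : E n) : ℝ := ∑ i, h f i x * h f i x

section

variable {f : E n → ℝ} (hf : Smooth f)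

lemma sum_pd_H (i : Fin n) (x : E n) : ∑ j, pd j f x * H f i j x = h f i x := by
  unfold h
  exact Finset.sum_congr rfl fun j _ => by ring

lemma sum_pd_h (x : E n) : ∑ j, pd j f x * h f j x = s f x := by
  unfold s
  exact Finset.sum_congr rfl fun j _ => by ring

include hf

lemma sum_pd_H' (j : Fin n) (x : E n) : ∑ i, pd i f x * H f i j x = h f j x := by
  unfold h
  exact Finset.sum_congr rfl fun i _ => by rw [H_symm hf i j]; ring

lemma sum_H_pd' (j : Fin n) (x : E n) : ∑ i, H f i j x * pd i f x = h f j x := by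
  unfold h
  exact Finset.sum_congr rfl fun i _ => by rw [H_symm hf i j]

lemma HP_chr (m k i j : Fin n) (x : E n) : HP m (chr (gF f) k i j)
    (((T3 f m i j x * pd k f x + H f i j x * H f m k x) * W2 f x -
      H f i j x * pd k f x * (2 * h f m x)) / W2 f x ^ 2) x := by
  have e : chr (gF f) k i j = fun y => H f i j y * pd k f y / W2 f y :=
    funext fun y => chr_gF hf k i j y
  rw [e]
  exact HP.div ((HP_H hf m i j x).mul (HP_pd hf m k x)) (HP_W2 hf m x) (W2_ne f x)

lemma ric (i j : Fin n) (x : E n) :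
    ∑ k, (pd k (chr (gF f) k i j) x - pd j (chr (gF f) k i k) x +
      ∑ l, (chr (gF f) k k l x * chr (gF f) l i j x - chr (gF f) k j l x * chr (gF f) l i k x)) =
    (H f i j x * L f x - ∑ k, H f i k x * H f j k x) / W2 f x -
      (H f i j x * s f x - h f i x * h f j x) / W2 f x ^ 2 := by
  have hW := W2_ne f x
  have e1 : ∀ k, ∑ l, (chr (gF f) k k l x * chr (gF f) l i j x -
      chr (gF f) k j l x * chr (gF f) l i k x) =
      pd k f x * H f i j x / W2 f x ^ 2 * h f k x - pd k f x * H f i k x / W2 f x ^ 2 * h f j x := by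
    intro k
    have e2 : ∀ l, chr (gF f) k k l x * chr (gF f) l i j x -
        chr (gF f) k j l x * chr (gF f) l i k x =
        pd k f x * H f i j x / W2 f x ^ 2 * (H f k l x * pd l f x) -
        pd k f x * H f i k x / W2 f x ^ 2 * (H f j l x * pd l f x) := by
      intro l
      simp only [chr_gF hf]
      field_simp
    simp only [e2, Finset.sum_sub_distrib, ← Finset.mul_sum]
    rfl
  have e3 : ∀ k, (pd k (chr (gF f) k i j) x - pd j (chr (gF f) k i k) x +
      ∑ l, (chr (gF f) k k l x * chr (gF f) l i j x - chr (gF f) k j l x * chr (gF f) l i k x)) =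
      H f i j x / W2 f x * H f k k x - 1 / W2 f x * (H f i k x * H f j k x) -
      H f i j x / W2 f x ^ 2 * (h f k x * pd k f x) +
      h f j x / W2 f x ^ 2 * (H f i k x * pd k f x) := by
    intro k
    rw [e1, (HP_chr hf k k i j x).pd, (HP_chr hf j k i k x).pd, T3_symm1 hf j i k,
      T3_symm2 hf i j k, T3_symm1 hf i k j]
    field_simp
    ring
  rw [Finset.sum_congr rfl fun k _ => e3 k]
  simp only [Finset.sum_add_distrib, Finset.sum_sub_distrib, ← Finset.mul_sum]
  have e4 : ∑ k, H f k k x = L f x := rfl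
  have e5 : ∑ k, h f k x * pd k f x = s f x := rfl
  have e6 : ∑ k, H f i k x * pd k f x = h f i x := rfl
  rw [e4, e5, e6]
  field_simp
  ring

lemma scal_gF (x : E n) : scal (gF f) x =
    (L f x ^ 2 - q2 f x) / W2 f x - 2 * (L f x * s f x - h2 f x) / W2 f x ^ 2 := by
  have hW := W2_ne f x
  unfold scal
  simp only [ric hf]
  rw [up_dbl]
  have e1 : ∑ i, ((H f i i x * L f x - ∑ k, H f i k x * H f i k x) / W2 f x -
      (H f i i x * s f x - h f i x * h f i x) / W2 f x ^ 2) =
      (L f x ^ 2 - q2 f x) / W2 f x - (L f x * s f x - h2 f x) / W2 f x ^ 2 := by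
    have e : ∀ i, ((H f i i x * L f x - ∑ k, H f i k x * H f i k x) / W2 f x -
      (H f i i x * s f x - h f i x * h f i x) / W2 f x ^ 2) =
      L f x / W2 f x * H f i i x - 1 / W2 f x * (∑ k, H f i k x * H f i k x) -
      s f x / W2 f x ^ 2 * H f i i x + 1 / W2 f x ^ 2 * (h f i x * h f i x) := by
      intro i
      field_simp
      ring
    simp only [e, Finset.sum_add_distrib, Finset.sum_sub_distrib, ← Finset.mul_sum]
    have e4 : ∑ k, H f k k x = L f x := rfl
    have e5 : ∑ i, ∑ k, H f i k x * H f i k x = q2 f x := rfl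
    have e6 : ∑ i, h f i x * h f i x = h2 f x := rfl
    rw [e4, e5, e6]
    field_simp
    ring
  have e2 : ∀ i, ∑ j, pd j f x * ((H f i j x * L f x - ∑ k, H f i k x * H f j k x) / W2 f x -
      (H f i j x * s f x - h f i x * h f j x) / W2 f x ^ 2) =
      (h f i x * L f x - ∑ k, H f i k x * h f k x) / W2 f x := by
    intro i
    have e : ∀ j, pd j f x * ((H f i j x * L f x - ∑ k, H f i k x * H f j k x) / W2 f x -
      (H f i j x * s f x - h f i x * h f j x) / W2 f x ^ 2) =
      L f x / W2 f x * (pd j f x * H f i j x) -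
      1 / W2 f x * (∑ k, H f i k x * (pd j f x * H f j k x)) -
      s f x / W2 f x ^ 2 * (pd j f x * H f i j x) +
      h f i x / W2 f x ^ 2 * (pd j f x * h f j x) := by
      intro j
      have e' : ∑ k, H f i k x * (pd j f x * H f j k x) =
          pd j f x * ∑ k, H f i k x * H f j k x := by
        rw [Finset.mul_sum]
        exact Finset.sum_congr rfl fun k _ => by ring
      rw [e']
      field_simp
      ring
    simp only [e, Finset.sum_add_distrib, Finset.sum_sub_distrib, ← Finset.mul_sum]
    rw [Finset.sum_comm]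
    simp only [← Finset.mul_sum, sum_pd_H, sum_pd_h, sum_pd_H' hf]
    field_simp
    ring
  simp only [e1, e2]
  have e3 : ∑ i, pd i f x * ((h f i x * L f x - ∑ k, H f i k x * h f k x) / W2 f x) =
      (s f x * L f x - h2 f x) / W2 f x := by
    have e : ∀ i, pd i f x * ((h f i x * L f x - ∑ k, H f i k x * h f k x) / W2 f x) =
      L f x / W2 f x * (pd i f x * h f i x) -
      1 / W2 f x * ∑ k, (h f k x * (pd i f x * H f i k x)) := by
      intro i
      have e' : ∑ k, h f k x * (pd i f x * H f i k x) =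
          pd i f x * ∑ k, H f i k x * h f k x := by
        rw [Finset.mul_sum]
        exact Finset.sum_congr rfl fun k _ => by ring
      rw [e']
      field_simp
    simp only [e, Finset.sum_sub_distrib, ← Finset.mul_sum]
    rw [Finset.sum_comm]
    simp only [← Finset.mul_sum, sum_pd_h, sum_pd_H' hf]
    have e6 : ∑ i, h f i x * h f i x = h2 f x := rfl
    rw [e6]
    field_simp
  rw [e3]
  field_simp
  ring

lemma HP_Y (k i : Fin n) (x : E n) : HP k (Y f i)
    (((H f k i x * L f x + pd i f x * ∑ m, T3 f k m m x -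
      ∑ m, (T3 f k i m x * pd m f x + H f i m x * H f k m x)) * W2 f x -
      (pd i f x * L f x - h f i x) * (2 * h f k x)) / W2 f x ^ 2) x :=
  HP.div (((HP_pd hf k i x).mul (HP_L hf k x)).sub (HP_h hf k i x)) (HP_W2 hf k x) (W2_ne f x)

/-- The scalar curvature is the divergence of `Y`. -/
lemma div_Y (x : E n) : ∑ i, pd i (Y f i) x = scal (gF f) x := by
  have hW := W2_ne f x
  rw [scal_gF hf]
  have e : ∀ i, pd i (Y f i) x = L f x / W2 f x * H f i i x +
      1 / W2 f x * (∑ m, pd i f x * T3 f i m m x) -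
      1 / W2 f x * (∑ m, pd m f x * T3 f m i i x) - 1 / W2 f x * (∑ m, H f i m x * H f i m x) -
      2 * L f x / W2 f x ^ 2 * (h f i x * pd i f x) + 2 / W2 f x ^ 2 * (h f i x * h f i x) := by
    intro i
    rw [(HP_Y hf i i x).pd]
    have e1 : ∑ m, (T3 f i i m x * pd m f x + H f i m x * H f i m x) =
        ∑ m, pd m f x * T3 f m i i x + ∑ m, H f i m x * H f i m x := by
      rw [← Finset.sum_add_distrib]
      refine Finset.sum_congr rfl fun m _ => ?_
      rw [T3_symm2 hf i i m, T3_symm1 hf i m i]
      ring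
    rw [e1, ← Finset.mul_sum]
    field_simp
    ring
  simp only [e, Finset.sum_add_distrib, Finset.sum_sub_distrib, ← Finset.mul_sum]
  have e7 : ∑ i, ∑ m, pd m f x * T3 f m i i x = ∑ i, pd i f x * ∑ m, T3 f i m m x := by
    rw [Finset.sum_comm]
    exact Finset.sum_congr rfl fun i _ => by rw [Finset.mul_sum]
  have e4 : ∑ k, H f k k x = L f x := rfl
  have e5 : ∑ i, ∑ k, H f i k x * H f i k x = q2 f x := rfl
  have e6 : ∑ i, h f i x * h f i x = h2 f x := rfl
  have e8 : ∑ k, h f k x * pd k f x = s f x := rfl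
  rw [e7, e4, e5, e6, e8]
  field_simp
  ring

end

end Vale.Agent.H247E
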