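import Vale.Agent.P366.H247.Mom

/-! P366, class E1: the dominant energy condition makes the divergence nonnegative. -/

set_option linter.all false

open MeasureTheory Metric Filter Topology Set
open scoped ContDiff ENNReal

noncomputable section
namespace Vale.Agent.H247E
open Vale.Agent.P366.Stmt Vale.Agent.P366.T2

variable {n : ℕ}

/-! ### Fields that agree near a point -/

section

variable {g g' K K' : Field n} {x : E n}

lemma up_c (h : g x = g' x) (i j : Fin n) : up g i j x = up g' i j x := by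
  unfold up mat
  rw [h]

lemma chr_c (h : ∀ᶠ y in 𝓝 x, g y = g' y) (k i j : Fin n) : chr g k i j x = chr g' k i j x := by
  have h5 : ∀ k i j, pd k (fun y => g y i j) x = pd k (fun y => g' y i j) x := by
    intro k i j
    unfold pd
    refine Filter.EventuallyEq.lineDeriv_eq ?_
    filter_upwards [h] with y hy
    rw [hy]
  unfold chr
  simp only [up_c h.self_of_nhds, h5]

lemma chr_e (h : ∀ᶠ y in 𝓝 x, g y = g' y) (k i j : Fin n) :
    chr g k i j =ᶠ[𝓝 x] chr g' k i j := by
  filter_upwards [eventually_eventually_nhds.2 h] with y hy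
  exact chr_c hy k i j

lemma scal_c (h : ∀ᶠ y in 𝓝 x, g y = g' y) : scal g x = scal g' x := by
  have h2 : ∀ m k i j, pd m (chr g k i j) x = pd m (chr g' k i j) x := by
    intro m k i j
    unfold pd
    exact (chr_e h k i j).lineDeriv_eq
  unfold scal
  simp only [up_c h.self_of_nhds, h2, chr_c h]

lemma tr_c (h : g x = g' x) (hK : K x = K' x) : tr g K x = tr g' K' x := by
  unfold tr
  simp only [up_c h, hK]

lemma momT_c (h : g x = g' x) (hK : K x = K' x) (i j : Fin n) :
    momT g K x i j = momT g' K' x i j := by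
  unfold momT
  rw [tr_c h hK, h, hK]

lemma mu_c (h : ∀ᶠ y in 𝓝 x, g y = g' y) (hK : K x = K' x) : mu g K x = mu g' K' x := by
  unfold mu
  rw [scal_c h, tr_c h.self_of_nhds hK]
  unfold normSq
  simp only [up_c h.self_of_nhds, hK]

lemma mom_c (h : ∀ᶠ y in 𝓝 x, g y = g' y) (hK : ∀ᶠ y in 𝓝 x, K y = K' y) (j : Fin n) :
    mom g K j x = mom g' K' j x := by
  have h2 : ∀ k i j, pd k (fun y => momT g K y i j) x = pd k (fun y => momT g' K' y i j) x := by
    intro k i j
    unfold pd
    refine Filter.EventuallyEq.lineDeriv_eq ?_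
    filter_upwards [h, hK] with y hy hy'
    exact momT_c hy hy' i j
  unfold mom
  simp only [up_c h.self_of_nhds, h2, chr_c h, momT_c h.self_of_nhds hK.self_of_nhds]

lemma covNorm_c (h : g x = g' x) {w w' : Fin n → E n → ℝ} (hw : ∀ i, w i x = w' i x) :
    covNorm g w x = covNorm g' w' x := by
  unfold covNorm
  simp only [up_c h, hw]

end

section

variable {f u : E n → ℝ}

lemma covNorm_sq (w : Fin n → E n → ℝ) (x : E n) :
    ∑ i, ∑ j, up (gF f) i j x * w i x * w j x =
      ∑ i, w i x ^ 2 - (∑ i, pd i f x * w i x) ^ 2 / W2 f x := by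
  have e : ∀ i j, up (gF f) i j x * w i x * w j x = up (gF f) i j x * (w i x * w j x) :=
    fun i j => by ring
  simp only [e]
  rw [up_dbl]
  have e1 : ∑ i, pd i f x * ∑ j, pd j f x * (w i x * w j x) = (∑ i, pd i f x * w i x) ^ 2 := by
    rw [sq, Finset.sum_mul]
    refine Finset.sum_congr rfl fun i _ => ?_
    rw [Finset.mul_sum, Finset.mul_sum]
    exact Finset.sum_congr rfl fun j _ => by ring
  rw [e1]
  congr 1
  exact Finset.sum_congr rfl fun i _ => by ring

lemma grad_le (w : Fin n → E n → ℝ) (x : E n) :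
    |∑ i, pd i f x * w i x| ≤ √(W2 f x * (W2 f x - 1)) * covNorm (gF f) w x := by
  have hW := W2_pos f x
  have hW1 := one_le_W2 f x
  have hcs : (∑ i, pd i f x * w i x) ^ 2 ≤ (∑ i, pd i f x ^ 2) * ∑ i, w i x ^ 2 :=
    Finset.sum_mul_sq_le_sq_mul_sq _ _ _
  have hp : ∑ i, pd i f x ^ 2 = W2 f x - 1 := by unfold W2; ring
  rw [hp] at hcs
  unfold covNorm
  rw [covNorm_sq, ← Real.sqrt_mul (mul_nonneg hW.le (by linarith))]
  apply Real.abs_le_sqrt
  set a := ∑ i, pd i f x * w i x
  set b := ∑ i, w i x ^ 2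
  have e : W2 f x * (W2 f x - 1) * (b - a ^ 2 / W2 f x) =
      W2 f x * ((W2 f x - 1) * b) - (W2 f x - 1) * a ^ 2 := by
    field_simp
  rw [e]
  nlinarith

variable (hf : Smooth f) (hu : Smooth u)
include hf hu

/-- The divergence of `(1 + u²) Y`. -/
lemma div_Z (x : E n) : ∑ i, pd i (fun y => (1 + u y ^ 2) * Y f i y) x =
    (1 + u x ^ 2) * scal (gF f) x + 2 * u x * ∑ i, pd i u x * Y f i x := by
  have e : ∀ i, pd i (fun y => (1 + u y ^ 2) * Y f i y) x =
      (1 + u x ^ 2) * pd i (Y f i) x + 2 * u x * (pd i u x * Y f i x) := by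
    intro i
    have h1 := HP.sm hu i x
    have h2 := ((HP.const i 1 x).add (h1.mul h1)).mul (HP.sm (smooth_Y hf i) i x)
    have h3 := h2.congr (g := fun y => (1 + u y ^ 2) * Y f i y) (Eventually.of_forall fun y => by
      show (1 + u y ^ 2) * Y f i y = (1 + u y * u y) * Y f i y
      ring)
    rw [h3.pd]
    ring
  simp only [e, Finset.sum_add_distrib, ← Finset.mul_sum, div_Y hf]

/-- The divergence of `(1 + u²) Y` is nonnegative where the dominant energy condition holds and
the level sets of `f` are not trapped. -/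
lemma div_Z_nonneg {x : E n} (hdec : covNorm (gF f) (mom (gF f) (KF f u)) x ≤
      mu (gF f) (KF f u) x) (hun : u x ^ 2 * ∑ k, pd k f x ^ 2 ≤ 1) :
    0 ≤ ∑ i, pd i (fun y => (1 + u y ^ 2) * Y f i y) x := by
  have hW := W2_pos f x
  have hW1 := one_le_W2 f x
  have hp : ∑ i, pd i f x ^ 2 = W2 f x - 1 := by unfold W2; ring
  rw [div_Z hf hu]
  have h1 := grad_le (f := f) (mom (gF f) (KF f u)) x
  rw [mom_Y hf hu, abs_neg, abs_mul, abs_of_pos (sqrtW_pos f x), Real.sqrt_mul hW.le,
    mul_assoc] at h1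
  have h2 : |∑ i, pd i u x * Y f i x| ≤ √(W2 f x - 1) * covNorm (gF f) (mom (gF f) (KF f u)) x :=
    le_of_mul_le_mul_left h1 (sqrtW_pos f x)
  have hmu := mu_KF (u := u) hf x
  have h3 : |∑ i, pd i u x * Y f i x| ≤ √(W2 f x - 1) * mu (gF f) (KF f u) x :=
    h2.trans (mul_le_mul_of_nonneg_left hdec (Real.sqrt_nonneg _))
  have hmu0 : 0 ≤ mu (gF f) (KF f u) x := le_trans (Real.sqrt_nonneg _) hdec
  have h4 : |u x| * √(W2 f x - 1) ≤ 1 := by
    rw [hp] at hun
    have h5 : (|u x| * √(W2 f x - 1)) ^ 2 ≤ 1 := by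
      rw [mul_pow, sq_abs, Real.sq_sqrt (by linarith)]
      exact hun
    have h6 : 0 ≤ |u x| * √(W2 f x - 1) := by positivity
    nlinarith
  have h7 : |2 * u x * ∑ i, pd i u x * Y f i x| ≤ 2 * mu (gF f) (KF f u) x := by
    rw [abs_mul, abs_mul, abs_two]
    calc 2 * |u x| * |∑ i, pd i u x * Y f i x|
        ≤ 2 * |u x| * (√(W2 f x - 1) * mu (gF f) (KF f u) x) :=
          mul_le_mul_of_nonneg_left h3 (by positivity)
      _ = 2 * (|u x| * √(W2 f x - 1)) * mu (gF f) (KF f u) x := by ring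
      _ ≤ 2 * 1 * mu (gF f) (KF f u) x := by
          apply mul_le_mul_of_nonneg_right _ hmu0
          linarith
      _ = 2 * mu (gF f) (KF f u) x := by ring
  have h8 := neg_le_of_abs_le h7
  linarith

end

end Vale.Agent.H247E
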