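import Vale.Agent.P366.H247.Ball

/-! P366, class E1: the data on the complement of disjoint balls. -/

set_option linter.all false

open MeasureTheory Metric Filter Topology Set
open scoped ContDiff ENNReal RealInnerProductSpace

noncomputable section
namespace Vale.Agent.H247E
open Vale.Agent.P366.Stmt Vale.Agent.P366.T2
open Vale.Agent.P366 (sphM sphI flux dvg norm_smul_sph)

variable {n : ℕ}

/-- The hypotheses. -/
structure Data (D : Exterior n) {N : ℕ} (c : Fin N → E n) (r : Fin N → ℝ) (f u κ : E n → ℝ)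
    (T : Field n) : Prop where
  hr : ∀ a, 0 < r a
  hd : ∀ a b, a ≠ b → r a + r b < ‖c a - c b‖
  hΩ : ∀ x, 0 ≤ D.F x ↔ ∀ a, r a ≤ ‖x - c a‖
  hf : Smooth f
  hu : Smooth u
  hg : ∀ x, 0 ≤ D.F x → D.g x = gF f x
  hK : ∀ x, 0 ≤ D.F x → Form f u κ T D.K x
  hS : ∀ a, ∃ C, ∀ x, ‖x - c a‖ = r a → f x = C
  hS' : ∀ x, D.F x = 0 → ∃ i, pd i f x ≠ 0
  hun : ∀ x, (∀ a, r a < ‖x - c a‖) → u x ^ 2 * ∑ k, pd k f x ^ 2 ≤ 1

section

variable {D : Exterior n} {N : ℕ} {c : Fin N → E n} {r : Fin N → ℝ} {f u κ : E n → ℝ}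
  {T : Field n} (h : Data D c r f u κ T)
include h

omit h in
lemma isOpen_U (c : Fin N → E n) (r : Fin N → ℝ) : IsOpen {x : E n | ∀ a, r a < ‖x - c a‖} := by
  have : {x : E n | ∀ a, r a < ‖x - c a‖} = ⋂ a, {x : E n | r a < ‖x - c a‖} := by
    ext x; simp
  rw [this]
  refine isOpen_iInter_of_finite fun a => ?_
  exact isOpen_lt continuous_const (continuous_id.sub continuous_const).norm

lemma Data.U_sub {x : E n} (hx : ∀ a, r a < ‖x - c a‖) : 0 ≤ D.F x :=
  (h.hΩ x).2 fun a => (hx a).le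

lemma Data.ev_g {x : E n} (hx : ∀ a, r a < ‖x - c a‖) : ∀ᶠ y in 𝓝 x, D.g y = gF f y := by
  filter_upwards [(isOpen_U c r).mem_nhds hx] with y hy
  exact h.hg y (h.U_sub hy)

lemma Data.ev_K {x : E n} (hx : ∀ a, r a < ‖x - c a‖) : ∀ᶠ y in 𝓝 x, Form f u κ T D.K y := by
  filter_upwards [(isOpen_U c r).mem_nhds hx] with y hy
  exact h.hK y (h.U_sub hy)

/-- the divergence is nonnegative outside the balls -/
lemma Data.div_nonneg (hDEC : D.DEC) {x : E n} (hx : ∀ a, r a < ‖x - c a‖) :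
    0 ≤ ∑ i, pd i (fun y => (1 + u y ^ 2) * Y f i y) x := by
  have hg := h.ev_g hx
  have h1 := hDEC x (h.U_sub hx)
  rw [mu_c hg rfl, covNorm_c hg.self_of_nhds (w' := mom (gF f) D.K)
    (fun i => mom_c hg (Eventually.of_forall fun y => rfl) i)] at h1
  exact div_Z_form_nonneg h.hf h.hu (fun i j => (D.smooth i j).2) (fun x i j => (D.symm x i j).2)
    (h.ev_K hx) h1 (h.hun x hx)

/-- points of the sphere `a` lie outside the other closed balls -/
lemma Data.other {a b : Fin N} (hab : b ≠ a) {x : E n} (hx : ‖x - c a‖ = r a) :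
    r b < ‖x - c b‖ := by
  have h1 := h.hd a b hab.symm
  have h2 : ‖c a - c b‖ ≤ ‖x - c a‖ + ‖x - c b‖ := by
    have e : c a - c b = (x - c b) - (x - c a) := by abel
    rw [e]
    have := norm_sub_le (x - c b) (x - c a)
    linarith
  linarith

lemma Data.F_sphere {a : Fin N} {x : E n} (hx : ‖x - c a‖ = r a) : D.F x = 0 := by
  have hra := h.hr a
  refine le_antisymm ?_ ((h.hΩ x).2 fun b => ?_)
  · -- approach from inside
    have hcont : Tendsto (fun t : ℝ => D.F (c a + (1 - t) • (x - c a))) (𝓝[>] 0) (𝓝 (D.F x)) := by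
      have h1 : Continuous fun t : ℝ => D.F (c a + (1 - t) • (x - c a)) :=
        (ContDiff.continuous D.dom.1).comp (by fun_prop)
      have h2 := h1.tendsto 0
      simp only [sub_zero, one_smul, add_sub_cancel] at h2
      exact h2.mono_left nhdsWithin_le_nhds
    refine le_of_tendsto hcont ?_
    have h3 : ∀ᶠ t : ℝ in 𝓝[>] 0, t < 1 := by
      exact nhdsWithin_le_nhds (isOpen_Iio.mem_nhds (by norm_num : (0 : ℝ) < 1))
    filter_upwards [self_mem_nhdsWithin, h3] with t ht ht1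
    have ht0 : (0 : ℝ) < t := ht
    by_contra hc
    push Not at hc
    have h4 := (h.hΩ _).1 hc.le a
    have e : c a + (1 - t) • (x - c a) - c a = (1 - t) • (x - c a) := by abel
    rw [e, norm_smul, hx, Real.norm_eq_abs, abs_of_pos (by linarith)] at h4
    nlinarith
  · by_cases hab : b = a
    · rw [hab, hx]
    · exact (h.other hab hx).le

/-- the outward ray from the sphere -/
lemma Data.ray {a : Fin N} {x : E n} (hx : ‖x - c a‖ = r a) :
    ∀ᶠ t : ℝ in 𝓝[>] 0, ∀ b, r b < ‖x + t • ((r a)⁻¹ • (x - c a)) - c b‖ := by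
  have hra := h.hr a
  have h1 : ∀ b, b ≠ a → ∀ᶠ t : ℝ in 𝓝[>] 0, r b < ‖x + t • ((r a)⁻¹ • (x - c a)) - c b‖ := by
    intro b hb
    have h2 : Tendsto (fun t : ℝ => ‖x + t • ((r a)⁻¹ • (x - c a)) - c b‖) (𝓝[>] 0)
        (𝓝 ‖x - c b‖) := by
      have h3 : Continuous fun t : ℝ => ‖x + t • ((r a)⁻¹ • (x - c a)) - c b‖ := by fun_prop
      have h4 := h3.tendsto 0
      simp only [zero_smul, add_zero] at h4
      exact h4.mono_left nhdsWithin_le_nhds
    exact h2.eventually_const_lt (h.other hb hx)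
  have h2 : ∀ᶠ t : ℝ in 𝓝[>] 0, ∀ b, b ≠ a → r b < ‖x + t • ((r a)⁻¹ • (x - c a)) - c b‖ := by
    rw [eventually_all]
    intro b
    by_cases hb : b = a
    · exact Eventually.of_forall fun t hc => absurd hb hc
    · filter_upwards [h1 b hb] with t ht _ using ht
  filter_upwards [h2, self_mem_nhdsWithin] with t ht ht0 b
  have ht0' : (0 : ℝ) < t := ht0
  by_cases hb : b = a
  · rw [hb]
    have e : x + t • ((r a)⁻¹ • (x - c a)) - c a = (1 + t * (r a)⁻¹) • (x - c a) := by
      rw [add_smul, one_smul, mul_smul]; abel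
    rw [e, norm_smul, hx, Real.norm_eq_abs, abs_of_pos (by positivity)]
    have : (1 + t * (r a)⁻¹) * r a = r a + t := by field_simp
    rw [this]; linarith
  · exact ht b hb

/-- the first derivatives of the metric on the boundary -/
lemma Data.pd_g {a : Fin N} {x : E n} (hx : ‖x - c a‖ = r a) (i j k : Fin n) :
    pd k (fun y => D.g y i j) x = pd k (fun y => gF f y i j) x := by
  have h1 : Continuous (pd k (fun y => D.g y i j)) :=
    ContDiff.continuous (smooth_pd' (D.smooth i j).1 k)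
  have h2 : Continuous (pd k (fun y => gF f y i j)) :=
    ContDiff.continuous (smooth_pd' (smooth_gF h.hf i j) k)
  have hcl : IsClosed {y | pd k (fun y => D.g y i j) y = pd k (fun y => gF f y i j) y} :=
    isClosed_eq h1 h2
  have hlim : Tendsto (fun t : ℝ => x + t • ((r a)⁻¹ • (x - c a))) (𝓝[>] 0) (𝓝 x) := by
    have h3 : Continuous fun t : ℝ => x + t • ((r a)⁻¹ • (x - c a)) := by fun_prop
    have h4 := h3.tendsto 0
    simp only [zero_smul, add_zero] at h4
    exact h4.mono_left nhdsWithin_le_nhds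
  refine hcl.mem_of_tendsto hlim ?_
  filter_upwards [h.ray hx] with t ht
  show pd k (fun y => D.g y i j) _ = pd k (fun y => gF f y i j) _
  unfold pd
  refine Filter.EventuallyEq.lineDeriv_eq ?_
  filter_upwards [h.ev_g ht] with y hy
  rw [hy]

/-- the boundary data -/
lemma Data.atBd {a : Fin N} {x : E n} (hx : ‖x - c a‖ = r a) :
    ∃ s b : ℝ, s ≠ 0 ∧ AtBd f D.F x (fun i => (x - c a) i / r a) (r a) s b := by
  have hra := h.hr a
  obtain ⟨C, hC⟩ := h.hS a
  obtain ⟨s, hs1, hs2⟩ := sphere_const h.hf hra hx hC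
  obtain ⟨b, hb1, hb2⟩ := sphere_const D.dom.1 hra hx (fun y hy => h.F_sphere hy)
  have hF0 := h.F_sphere hx
  refine ⟨s, b, ?_, ?_, hra, ?_, hs1, hb1, hs2, hb2⟩
  · rintro rfl
    obtain ⟨i, hi⟩ := h.hS' x hF0
    exact hi (by rw [hs1 i, zero_mul])
  · have h1 : ∑ i, (x - c a) i ^ 2 = r a ^ 2 := by rw [← hx, EuclideanSpace.real_norm_sq_eq]
    have e : ∀ i, (x - c a) i / r a * ((x - c a) i / r a) = (x - c a) i ^ 2 / r a ^ 2 :=
      fun i => by ring
    simp only [e]
    rw [← Finset.sum_div, h1]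
    field_simp
  · -- the outward derivative is positive
    have hunit : ∑ i, (x - c a) i / r a * ((x - c a) i / r a) = 1 := by
      have h1 : ∑ i, (x - c a) i ^ 2 = r a ^ 2 := by rw [← hx, EuclideanSpace.real_norm_sq_eq]
      have e : ∀ i, (x - c a) i / r a * ((x - c a) i / r a) = (x - c a) i ^ 2 / r a ^ 2 :=
        fun i => by ring
      simp only [e]
      rw [← Finset.sum_div, h1]
      field_simp
    have hb0 : b ≠ 0 := by
      rintro rfl
      obtain ⟨i, hi⟩ := D.dom.2.1 x hF0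
      exact hi (by rw [hb1 i, zero_mul])
    have hγ : HasDerivAt (fun t : ℝ => x + t • ((r a)⁻¹ • (x - c a))) ((r a)⁻¹ • (x - c a)) 0 := by
      simpa using ((hasDerivAt_id (0 : ℝ)).smul_const ((r a)⁻¹ • (x - c a))).const_add x
    have h1 := chain D.dom.1 hγ
    have h2 : ∑ j, ((r a)⁻¹ • (x - c a)) j * pd j D.F (x + (0 : ℝ) • ((r a)⁻¹ • (x - c a))) = b := by
      simp only [zero_smul, add_zero]
      have e : ∀ j, ((r a)⁻¹ • (x - c a)) j * pd j D.F x =
          b * ((x - c a) j / r a * ((x - c a) j / r a)) := by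
        intro j
        rw [hb1 j]
        simp only [PiLp.smul_apply, smul_eq_mul]
        ring
      simp only [e, ← Finset.mul_sum, hunit, mul_one]
    rw [h2] at h1
    have h3 := h1.tendsto_slope_zero_right
    have h4 : 0 ≤ b := by
      refine ge_of_tendsto h3 ?_
      filter_upwards [h.ray hx, self_mem_nhdsWithin] with t ht ht0
      have ht0' : (0 : ℝ) < t := ht0
      have h5 := h.U_sub ht
      simp only [zero_smul, add_zero, zero_add, hF0, sub_zero, smul_eq_mul]
      positivity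
    exact lt_of_le_of_ne h4 (Ne.symm hb0)

/-- the flux density on the boundary spheres -/
lemma Data.flux_ge (hn : 2 ≤ n) (hTr : D.Trapped) {a : Fin N} {x : E n} (hx : ‖x - c a‖ = r a) :
    ((n : ℝ) - 1) / r a ≤ ∑ i, (1 + u x ^ 2) * Y f i x * ((x - c a) i / r a) := by
  obtain ⟨s, b, hs, hbd⟩ := h.atBd hx
  have hF0 := h.F_sphere hx
  have h1 := hTr x hF0
  rw [Vale.Agent.P366.T1.thetaPlus_congr (g' := gF f) (K' := D.K) (h.hg x hF0.ge) rfl
    (fun i j k => h.pd_g hx i j k)] at h1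
  exact hbd.flux_ge hn h.hf (h.hK x hF0.ge) hs h1

end

end Vale.Agent.H247E
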