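import Vale.Agent.P366.H247.Inf

/-! P366, class E1: the area and the inequality. -/

set_option linter.all false

open MeasureTheory Metric Filter Topology Set
open scoped ContDiff ENNReal RealInnerProductSpace

noncomputable section
namespace Vale.Agent.H247E
open Vale.Agent.P366.Stmt Vale.Agent.P366.T2
open Vale.Agent.P366 (sphM sphI flux dvg norm_smul_sph)

variable {n : ℕ}

lemma det_gF (f : E n → ℝ) (x : E n) : (mat (gF f) x).det = W2 f x := by
  have e : mat (gF f) x = 1 + Matrix.replicateCol Unit (fun i => pd i f x) *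
      Matrix.replicateRow Unit (fun i => pd i f x) := by
    ext i j
    rw [Matrix.add_apply, Matrix.one_apply, Matrix.mul_apply]
    show (if i = j then (1 : ℝ) else 0) + pd i f x * pd j f x = _
    simp
  rw [e, Matrix.det_one_add_replicateCol_mul_replicateRow]
  unfold W2
  congr 1
  unfold dotProduct
  exact Finset.sum_congr rfl fun i _ => by ring

lemma rpow_sum_le {ι : Type*} (s : Finset ι) (x : ι → ℝ) (hx : ∀ a, 0 ≤ x a) {p : ℝ}
    (hp : 0 < p) (hp1 : p ≤ 1) : (∑ a ∈ s, x a) ^ p ≤ ∑ a ∈ s, x a ^ p := by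
  classical
  induction s using Finset.induction_on with
  | empty => simp [Real.zero_rpow hp.ne']
  | insert a s ha ih =>
    rw [Finset.sum_insert ha, Finset.sum_insert ha]
    have h1 : (x a + ∑ b ∈ s, x b) ^ p ≤ x a ^ p + (∑ b ∈ s, x b) ^ p := by
      have h2 := hx a
      have h3 : 0 ≤ ∑ b ∈ s, x b := Finset.sum_nonneg fun b _ => hx b
      lift x a to NNReal using h2 with y
      lift (∑ b ∈ s, x b) to NNReal using h3 with z
      exact_mod_cast NNReal.rpow_add_le_add_rpow y z hp.le hp1
    linarith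

section

variable {D : Exterior n} {N : ℕ} {c : Fin N → E n} {r : Fin N → ℝ} {f u κ : E n → ℝ}
  {T : Field n} (h : Data D c r f u κ T)
include h

lemma Data.nonempty : ∃ a : Fin N, True := by
  by_contra hc
  push Not at hc
  obtain ⟨x, hx⟩ := D.bdry
  obtain ⟨i, hi⟩ := D.dom.2.1 x hx
  have hmin : IsLocalMin D.F x := by
    refine Eventually.of_forall fun y => ?_
    rw [hx]
    exact (h.hΩ y).2 fun a => (hc a).elim
  apply hi
  rw [Vale.Agent.P366.pd_eq_of_smooth D.dom.1]
  unfold P366.pd
  rw [hmin.fderiv_eq_zero]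
  rfl

theorem Data.area_le (hn : 3 ≤ n) :
    D.area D.F ≤ ENNReal.ofReal (P366.omega n * ∑ a, r a ^ (n - 1)) := by
  have hne : Nonempty (Fin n) := ⟨⟨0, by omega⟩⟩
  have hnt : Nontrivial (E n) := inferInstance
  unfold Exterior.area
  refine sSup_le ?_
  rintro _ ⟨X, ⟨hX1, ⟨C, hC⟩, hX3⟩, rfl⟩
  apply ENNReal.ofReal_le_ofReal
  set V : Fin n → E n → ℝ := fun i x => √(W2 f x) * X i x with hVd
  have hV : ∀ i, Smooth (V i) := fun i => ContDiff.mul (smooth_sqrtW h.hf) (hX1 i)
  have hVC : ∀ i x, C < ‖x‖ → V i x = 0 := by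
    intro i x hx
    simp only [hVd]
    rw [hC x hx i, mul_zero]
  have hset : {x : E n | 0 ≤ D.F x} = {x : E n | ∀ a, r a ≤ ‖x - c a‖} := by
    ext x
    exact h.hΩ x
  have hmeas : MeasurableSet {x : E n | 0 ≤ D.F x} :=
    (isClosed_le continuous_const (ContDiff.continuous D.dom.1)).measurableSet
  have hnull : (volume : Measure (E n)) (⋃ a, sphere (c a) (r a)) = 0 := by
    rw [measure_iUnion_null_iff]
    intro a
    exact Measure.addHaar_sphere_of_ne_zero volume (c a) (h.hr a).ne'
  have h1 : ∫ x in {x : E n | 0 ≤ D.F x}, ∑ i, pd i (fun y => √(mat D.g y).det * X i y) x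
      ∂vol n = ∫ x in {x : E n | ∀ a, r a ≤ ‖x - c a‖}, dvg V x := by
    rw [Vale.Agent.P366.vol_eq, ← hset]
    refine setIntegral_congr_ae hmeas ?_
    have h2 : ∀ᵐ x : E n, x ∉ ⋃ a, sphere (c a) (r a) := measure_eq_zero_iff_ae_notMem.1 hnull
    filter_upwards [h2] with x hx hxΩ
    have hU : ∀ a, r a < ‖x - c a‖ := by
      intro a
      have h3 := (h.hΩ x).1 hxΩ a
      refine lt_of_le_of_ne h3 fun heq => hx (mem_iUnion.2 ⟨a, ?_⟩)
      rw [mem_sphere_iff_norm]
      exact heq.symm
    rw [dvg_eq hV]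
    refine Finset.sum_congr rfl fun i _ => ?_
    unfold pd
    refine Filter.EventuallyEq.lineDeriv_eq ?_
    filter_upwards [h.ev_g hU] with y hy
    have e : mat D.g y = mat (gF f) y := by unfold mat; rw [hy]
    rw [e, det_gF]
  rw [h1, int_out h.hr h.hd hV hVC]
  have h2 : ∀ a, -(P366.omega n * r a ^ (n - 1)) ≤ flux (fun i y => V i (c a + y)) (r a) := by
    intro a
    have hra := h.hr a
    unfold flux
    have h3 : (-1) * P366.omega n ≤
        sphI (fun x => ∑ i, V i (c a + x) * (x i / ‖x‖)) (r a) := by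
      rw [← Vale.Agent.P366.sphI_const (n := n) (R := r a)]
      unfold sphI
      refine integral_mono (integrable_const _) ?_ fun θ => ?_
      · refine Vale.Agent.P366.integrable_sph (b := 0) le_rfl hra
          (h := fun x => ∑ i, V i (c a + x) * (x i / ‖x‖)) ?_
        refine continuousOn_finsetSum _ fun i _ => ?_
        refine ContinuousOn.mul ?_
          (Vale.Agent.P366.contDiffOn_coord_div (m := 0) le_rfl i).continuousOn
        exact ((ContDiff.continuous (hV i)).comp (continuous_const.add continuous_id)).continuousOn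
      · have hx : ‖r a • (θ : E n)‖ = r a := norm_smul_sph hra.le θ
        have hxa : ‖c a + r a • (θ : E n) - c a‖ = r a := by rw [add_sub_cancel_left, hx]
        obtain ⟨s, b, hs, hbd⟩ := h.atBd hxa
        set x := c a + r a • (θ : E n) with hxd
        have hF0 := h.F_sphere hxa
        have h4 := hX3 x hF0.ge
        rw [h.hg x hF0.ge] at h4
        set ν : Fin n → ℝ := fun i => (x - c a) i / r a with hν
        have e1 : ∑ i, ∑ j, gF f x i j * X i x * X j x =
            ∑ i, X i x ^ 2 + (∑ i, pd i f x * X i x) ^ 2 := by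
          have e : ∀ i j, gF f x i j * X i x * X j x = (if i = j then X i x * X j x else 0) +
              pd i f x * X i x * (pd j f x * X j x) := by
            intro i j
            unfold gF
            split_ifs <;> ring
          simp only [e, Finset.sum_add_distrib, Finset.sum_ite_eq, Finset.mem_univ, if_true,
            ← Finset.mul_sum, ← Finset.sum_mul]
          congr 1
          · exact Finset.sum_congr rfl fun i _ => by ring
          · ring
        have e2 : ∑ i, pd i f x * X i x = s * ∑ i, ν i * X i x := by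
          rw [Finset.mul_sum]
          refine Finset.sum_congr rfl fun i _ => ?_
          rw [hbd.pf i]; ring
        rw [e1, e2] at h4
        have hcs : (∑ i, ν i * X i x) ^ 2 ≤ (∑ i, ν i ^ 2) * ∑ i, X i x ^ 2 :=
          Finset.sum_mul_sq_le_sq_mul_sq _ _ _
        have hν2 : ∑ i, ν i ^ 2 = 1 := by
          rw [← hbd.unit]; exact Finset.sum_congr rfl fun i _ => by ring
        rw [hν2, one_mul] at hcs
        set A := ∑ i, ν i * X i x with hA
        have h5 : (√(W2 f x) * A) ^ 2 ≤ 1 := by
          rw [mul_pow, sqrtW_sq, hbd.w]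
          nlinarith
        have h6 : -1 ≤ √(W2 f x) * A := (abs_le_of_sq_le_sq' (by simpa using h5) zero_le_one).1
        have e3 : ∑ i, V i x * ((r a • (θ : E n)) i / ‖r a • (θ : E n)‖) = √(W2 f x) * A := by
          rw [hA, Finset.mul_sum]
          refine Finset.sum_congr rfl fun i _ => ?_
          simp only [hVd, hν, hxd, add_sub_cancel_left, hx]
          ring
        show -1 ≤ ∑ i, V i x * ((r a • (θ : E n)) i / ‖r a • (θ : E n)‖)
        rw [e3]
        exact h6
    calc -(P366.omega n * r a ^ (n - 1)) = r a ^ (n - 1) * ((-1) * P366.omega n) := by ring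
      _ ≤ _ := mul_le_mul_of_nonneg_left h3 (by positivity)
  have h3 : ∑ a, -(P366.omega n * r a ^ (n - 1)) ≤ ∑ a, flux (fun i y => V i (c a + y)) (r a) :=
    Finset.sum_le_sum fun a _ => h2 a
  rw [Finset.sum_neg_distrib, ← Finset.mul_sum] at h3
  linarith

/-- **The Penrose inequality.** -/
theorem Data.main (hn : 3 ≤ n) (hAF : D.IsAF) (hu : BigO (((n : ℝ) - 2) / 4) u) {m : ℝ}
    (hm : D.IsEnergy m) (hDEC : D.DEC) (hTr : D.Trapped) :
    D.Amin ≠ ⊤ ∧ 0 < m ∧
      (D.Amin.toReal / omega n) ^ (((n : ℝ) - 2) / (n - 1)) / 2 ≤ m := by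
  have hne : Nonempty (Fin n) := ⟨⟨0, by omega⟩⟩
  have hnt : Nontrivial (E n) := inferInstance
  have hω : 0 < P366.omega n := Vale.Agent.P366.omega_pos'
  have hn3 : (3 : ℝ) ≤ n := by exact_mod_cast hn
  have hm1 := h.energy_ge hn hAF hu hm hDEC hTr
  have hA : D.Amin ≤ ENNReal.ofReal (P366.omega n * ∑ a, r a ^ (n - 1)) :=
    le_trans (sInf_le ⟨D.F, D.dom, fun x hx => hx, rfl⟩) (h.area_le hn)
  have hsum0 : 0 ≤ ∑ a, r a ^ (n - 1) := Finset.sum_nonneg fun a _ => by
    have := h.hr a; positivity
  refine ⟨ne_top_of_le_ne_top ENNReal.ofReal_ne_top hA, ?_, ?_⟩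
  · obtain ⟨a, -⟩ := h.nonempty
    have h1 : 0 < ∑ a, r a ^ (n - 2) :=
      Finset.sum_pos (fun a _ => by have := h.hr a; positivity) ⟨a, Finset.mem_univ a⟩
    linarith
  · have h1 : D.Amin.toReal ≤ P366.omega n * ∑ a, r a ^ (n - 1) :=
      ENNReal.toReal_le_of_le_ofReal (by positivity) hA
    rw [Vale.Agent.P366.omega_eq]
    have h2 : D.Amin.toReal / P366.omega n ≤ ∑ a, r a ^ (n - 1) := by
      rw [div_le_iff₀ hω]; linarith
    have hp : 0 < ((n : ℝ) - 2) / (n - 1) := div_pos (by linarith) (by linarith)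
    have hp1 : ((n : ℝ) - 2) / (n - 1) ≤ 1 := by
      rw [div_le_one (by linarith)]; linarith
    have h3 : (D.Amin.toReal / P366.omega n) ^ (((n : ℝ) - 2) / (n - 1)) ≤
        ∑ a, r a ^ (n - 2) := by
      calc (D.Amin.toReal / P366.omega n) ^ (((n : ℝ) - 2) / (n - 1))
          ≤ (∑ a, r a ^ (n - 1)) ^ (((n : ℝ) - 2) / (n - 1)) :=
            Real.rpow_le_rpow (_root_.div_nonneg ENNReal.toReal_nonneg hω.le) h2 hp.le
        _ ≤ ∑ a, (r a ^ (n - 1)) ^ (((n : ℝ) - 2) / (n - 1)) :=
            rpow_sum_le _ _ (fun a => by have := h.hr a; positivity) hp hp1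
        _ = ∑ a, r a ^ (n - 2) := by
            refine Finset.sum_congr rfl fun a _ => ?_
            have hra := h.hr a
            rw [← Real.rpow_natCast, ← Real.rpow_mul hra.le, ← Real.rpow_natCast]
            congr 1
            rw [Nat.cast_sub (by omega), Nat.cast_sub (by omega)]
            push_cast
            have : (n : ℝ) - 1 ≠ 0 := by linarith
            field_simp
    linarith

end

end Vale.Agent.H247E
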