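import Vale.Agent.P366.H247.Gen

/-! P366, class E1: `K = u A + κ df ⊗ df + T`. -/

set_option linter.all false

open MeasureTheory Metric Filter Topology Set
open scoped ContDiff ENNReal

noncomputable section
namespace Vale.Agent.H247E
open Vale.Agent.P366.Stmt Vale.Agent.P366.T2

variable {n : ℕ}

/-- the structure of `K` at the point `x` -/
structure Form (f u κ : E n → ℝ) (T K : Field n) (x : E n) : Prop where
  eq : ∀ i j, K x i j = u x * H f i j x / √(W2 f x) + κ x * pd i f x * pd j f x + T x i j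
  grad : ∀ i, ∑ j, T x i j * pd j f x = 0
  tr : ∑ i, T x i i = 0

section

variable {f u κ : E n → ℝ} {T K : Field n} {x : E n}

lemma Form.eq' (h : Form f u κ T K x) (i j : Fin n) :
    K x i j = sg f u x * H f i j x + κ x * (pd i f x * pd j f x) + T x i j := by
  rw [h.eq]; unfold sg; ring

lemma Form.symm (hf : Smooth f) (h : Form f u κ T K x) (hs : ∀ i j, K x i j = K x j i)
    (i j : Fin n) : T x i j = T x j i := by
  have h1 := hs i j
  rw [h.eq' i j, h.eq' j i, H_symm hf i j, mul_comm (pd i f x)] at h1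
  linarith

lemma Form.Kp (h : Form f u κ T K x) (i : Fin n) :
    ∑ j, K x i j * pd j f x = sg f u x * H247E.h f i x + κ x * (W2 f x - 1) * pd i f x := by
  have e : ∀ j, K x i j * pd j f x = sg f u x * (H f i j x * pd j f x) +
      κ x * pd i f x * (pd j f x * pd j f x) + T x i j * pd j f x := by
    intro j
    rw [h.eq']; ring
  simp only [e, Finset.sum_add_distrib, ← Finset.mul_sum, sum_pd_sq, h.grad i]
  unfold H247E.h
  ring

lemma Form.trK (h : Form f u κ T K x) (hf : Smooth f) :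
    P366.Stmt.tr (gF f) K x = sg f u x * (L f x - s f x / W2 f x) + κ x * (W2 f x - 1) / W2 f x := by
  have hW := W2_ne f x
  unfold P366.Stmt.tr
  rw [up_dbl]
  have e : ∀ i, ∑ j, pd j f x * K x i j =
      sg f u x * H247E.h f i x + κ x * (W2 f x - 1) * pd i f x := by
    intro i
    rw [← h.Kp i]
    exact Finset.sum_congr rfl fun j _ => by ring
  have e2 : ∑ i, K x i i = sg f u x * L f x + κ x * (W2 f x - 1) := by
    simp only [h.eq', Finset.sum_add_distrib, ← Finset.mul_sum, sum_pd_sq, h.tr]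
    have e4 : ∑ k, H f k k x = L f x := rfl
    rw [e4]; ring
  have e3 : ∑ i, pd i f x * (sg f u x * H247E.h f i x + κ x * (W2 f x - 1) * pd i f x) =
      sg f u x * s f x + κ x * (W2 f x - 1) ^ 2 := by
    have e : ∀ i, pd i f x * (sg f u x * H247E.h f i x + κ x * (W2 f x - 1) * pd i f x) =
        sg f u x * (pd i f x * H247E.h f i x) + κ x * (W2 f x - 1) * (pd i f x * pd i f x) :=
      fun i => by ring
    simp only [e, Finset.sum_add_distrib, ← Finset.mul_sum, sum_pd_sq, sum_pd_h]
    ring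
  simp only [e]
  rw [e2, e3]
  field_simp
  ring

lemma Form.aK (h : Form f u κ T K x) (hf : Smooth f) (i : Fin n) :
    H247E.aK f K i x = sg f u x * (H247E.h f i x - (W2 f x * L f x - s f x) * pd i f x) := by
  have hW := W2_ne f x
  unfold H247E.aK momT
  have e : ∀ j, (K x i j - P366.Stmt.tr (gF f) K x * gF f x i j) * pd j f x =
      K x i j * pd j f x - P366.Stmt.tr (gF f) K x * ((if i = j then 1 else 0) * pd j f x) -
      P366.Stmt.tr (gF f) K x * pd i f x * (pd j f x * pd j f x) := by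
    intro j
    unfold gF; ring
  simp only [e, Finset.sum_sub_distrib, ← Finset.mul_sum, sum_pd_sq, h.Kp, ite_mul, one_mul,
    zero_mul, Finset.sum_ite_eq, Finset.mem_univ, if_true]
  rw [h.trK hf]
  field_simp
  ring

lemma Form.pa (h : Form f u κ T K x) (hf : Smooth f) :
    ∑ m, pd m f x * H247E.aK f K m x =
      sg f u x * (s f x - (W2 f x * L f x - s f x) * (W2 f x - 1)) := by
  have e : ∀ m, pd m f x * H247E.aK f K m x = sg f u x * (pd m f x * H247E.h f m x) -
      sg f u x * (W2 f x * L f x - s f x) * (pd m f x * pd m f x) := by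
    intro m
    rw [h.aK hf]; ring
  simp only [e, Finset.sum_sub_distrib, ← Finset.mul_sum, sum_pd_sq, sum_pd_h]
  ring

/-- The momentum field of the gradient is `-u Y`. -/
lemma Form.VK (h : Form f u κ T K x) (hf : Smooth f) (i : Fin n) :
    H247E.VK f K i x = -(u x * Y f i x) := by
  have hW := W2_ne f x
  have hp := sqrtW_pos f x
  have hq := sqrtW_sq f x
  unfold H247E.VK
  rw [h.aK hf, h.pa hf]
  unfold sg Y
  have e : (u x / √(W2 f x) * (H247E.h f i x - (W2 f x * L f x - s f x) * pd i f x) -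
      pd i f x * (u x / √(W2 f x) * (s f x - (W2 f x * L f x - s f x) * (W2 f x - 1))) /
        W2 f x) / √(W2 f x) =
      u x * (H247E.h f i x - (W2 f x * L f x - s f x) * pd i f x -
      pd i f x * (s f x - (W2 f x * L f x - s f x) * (W2 f x - 1)) / W2 f x) / √(W2 f x) ^ 2 := by
    field_simp
  rw [e, hq]
  field_simp
  ring

end

/-- the contraction of symmetric arrays -/
lemma ctr_gF (f : E n → ℝ) (x : E n) (A B : Fin n → Fin n → ℝ) (hA : ∀ i j, A i j = A j i)
    (hB : ∀ i j, B i j = B j i) :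
    ∑ i, ∑ j, ∑ k, ∑ l, up (gF f) i k x * up (gF f) j l x * A i j * B k l =
      ∑ i, ∑ j, A i j * B i j -
        2 * (∑ i, (∑ j, pd j f x * A i j) * (∑ j, pd j f x * B i j)) / W2 f x +
        (∑ i, pd i f x * ∑ j, pd j f x * A i j) * (∑ i, pd i f x * ∑ j, pd j f x * B i j) /
          W2 f x ^ 2 := by
  have hW := W2_ne f x
  set Ap : Fin n → ℝ := fun i => ∑ j, pd j f x * A i j with hAp
  set Bp : Fin n → ℝ := fun i => ∑ j, pd j f x * B i j with hBp
  have hAp' : ∀ j, ∑ i, pd i f x * A i j = Ap j := fun j =>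
    Finset.sum_congr rfl fun i _ => by rw [hA i j]
  have hBp' : ∀ j, ∑ i, pd i f x * B i j = Bp j := fun j =>
    Finset.sum_congr rfl fun i _ => by rw [hB i j]
  have e1 : ∀ j k, ∑ l, up (gF f) j l x * B k l = B k j - pd j f x * Bp k / W2 f x := by
    intro j k
    rw [up_mul]
  have e2 : ∀ i j, ∑ k, up (gF f) i k x * (B k j - pd j f x * Bp k / W2 f x) =
      B i j - pd j f x * Bp i / W2 f x - pd i f x * Bp j / W2 f x +
        pd i f x * pd j f x * (∑ k, pd k f x * Bp k) / W2 f x ^ 2 := by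
    intro i j
    rw [up_mul]
    have e : ∑ k, pd k f x * (B k j - pd j f x * Bp k / W2 f x) =
        Bp j - pd j f x * (∑ k, pd k f x * Bp k) / W2 f x := by
      have e' : ∀ k, pd k f x * (B k j - pd j f x * Bp k / W2 f x) =
          pd k f x * B k j - pd j f x / W2 f x * (pd k f x * Bp k) := fun k => by ring
      rw [Finset.sum_congr rfl fun k _ => e' k, Finset.sum_sub_distrib, ← Finset.mul_sum, hBp']
      ring
    rw [e]
    field_simp
    ring
  have e3 : ∀ i j, ∑ k, ∑ l, up (gF f) i k x * up (gF f) j l x * A i j * B k l =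
      A i j * B i j - 1 / W2 f x * (Bp i * (pd j f x * A i j)) -
        1 / W2 f x * (pd i f x * (Bp j * A i j)) +
        (∑ k, pd k f x * Bp k) / W2 f x ^ 2 * (pd i f x * (pd j f x * A i j)) := by
    intro i j
    have e4 : ∀ k, ∑ l, up (gF f) i k x * up (gF f) j l x * A i j * B k l =
        A i j * (up (gF f) i k x * ∑ l, up (gF f) j l x * B k l) := by
      intro k
      rw [Finset.mul_sum, Finset.mul_sum]
      exact Finset.sum_congr rfl fun l _ => by ring
    rw [Finset.sum_congr rfl fun k _ => e4 k, ← Finset.mul_sum]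
    simp only [e1]
    rw [e2]
    ring
  rw [Finset.sum_congr rfl fun i _ => Finset.sum_congr rfl fun j _ => e3 i j]
  have e5 : ∑ i, ∑ j, pd i f x * (Bp j * A i j) = ∑ i, Ap i * Bp i := by
    rw [Finset.sum_comm]
    refine Finset.sum_congr rfl fun j _ => ?_
    rw [← hAp' j, Finset.sum_mul]
    exact Finset.sum_congr rfl fun i _ => by ring
  have e6 : ∑ i, ∑ j, Bp i * (pd j f x * A i j) = ∑ i, Ap i * Bp i := by
    refine Finset.sum_congr rfl fun i _ => ?_
    rw [← Finset.mul_sum, mul_comm]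
  have e7 : ∑ i, ∑ j, pd i f x * (pd j f x * A i j) = ∑ i, pd i f x * Ap i := by
    refine Finset.sum_congr rfl fun i _ => ?_
    rw [← Finset.mul_sum]
  simp only [Finset.sum_add_distrib, Finset.sum_sub_distrib, ← Finset.mul_sum] at *
  have e8 : ∑ i, Bp i * ∑ j, pd j f x * A i j = ∑ i, Ap i * Bp i := by
    rw [← e6]
  have e9 : ∑ i, pd i f x * ∑ j, Bp j * A i j = ∑ i, Ap i * Bp i := by
    rw [← e5]
  have e10 : ∑ i, pd i f x * ∑ j, pd j f x * A i j = ∑ i, pd i f x * Ap i := by
    rw [← e7]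
  rw [e8, e9, e10]
  ring

section

variable {f u κ : E n → ℝ} {T K : Field n} {x : E n}

lemma Form.normSq (h : Form f u κ T K x) (hf : Smooth f) (hs : ∀ i j, K x i j = K x j i) :
    P366.Stmt.normSq (gF f) K x =
      (sg f u x ^ 2 * q2 f x + κ x ^ 2 * (W2 f x - 1) ^ 2 + (∑ i, ∑ j, T x i j ^ 2) +
        2 * sg f u x * κ x * s f x + 2 * sg f u x * ∑ i, ∑ j, T x i j * H f i j x) -
      2 * (sg f u x ^ 2 * h2 f x + 2 * sg f u x * κ x * (W2 f x - 1) * s f x +
        κ x ^ 2 * (W2 f x - 1) ^ 3) / W2 f x +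
      (sg f u x * s f x + κ x * (W2 f x - 1) ^ 2) ^ 2 / W2 f x ^ 2 := by
  have hTs := h.symm hf hs
  have hKp : ∀ i, ∑ j, pd j f x * K x i j =
      sg f u x * H247E.h f i x + κ x * (W2 f x - 1) * pd i f x := by
    intro i
    rw [← h.Kp i]
    exact Finset.sum_congr rfl fun j _ => by ring
  have e0 : P366.Stmt.normSq (gF f) K x =
      ∑ i, ∑ j, ∑ k, ∑ l, up (gF f) i k x * up (gF f) j l x * K x i j * K x k l := rfl
  rw [e0, ctr_gF f x (K x) (K x) hs hs]
  simp only [hKp]
  have e1 : ∑ i, pd i f x * (sg f u x * H247E.h f i x + κ x * (W2 f x - 1) * pd i f x) =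
      sg f u x * s f x + κ x * (W2 f x - 1) ^ 2 := by
    have e : ∀ i, pd i f x * (sg f u x * H247E.h f i x + κ x * (W2 f x - 1) * pd i f x) =
        sg f u x * (pd i f x * H247E.h f i x) + κ x * (W2 f x - 1) * (pd i f x * pd i f x) :=
      fun i => by ring
    simp only [e, Finset.sum_add_distrib, ← Finset.mul_sum, sum_pd_sq, sum_pd_h]
    ring
  have e2 : ∑ i, (sg f u x * H247E.h f i x + κ x * (W2 f x - 1) * pd i f x) *
      (sg f u x * H247E.h f i x + κ x * (W2 f x - 1) * pd i f x) =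
      sg f u x ^ 2 * h2 f x + 2 * sg f u x * κ x * (W2 f x - 1) * s f x +
        κ x ^ 2 * (W2 f x - 1) ^ 3 := by
    have e : ∀ i, (sg f u x * H247E.h f i x + κ x * (W2 f x - 1) * pd i f x) *
      (sg f u x * H247E.h f i x + κ x * (W2 f x - 1) * pd i f x) =
      sg f u x ^ 2 * (H247E.h f i x * H247E.h f i x) +
        2 * sg f u x * κ x * (W2 f x - 1) * (pd i f x * H247E.h f i x) +
        κ x ^ 2 * (W2 f x - 1) ^ 2 * (pd i f x * pd i f x) := fun i => by ring
    simp only [e, Finset.sum_add_distrib, ← Finset.mul_sum, sum_pd_sq, sum_pd_h]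
    have e6 : ∑ i, H247E.h f i x * H247E.h f i x = h2 f x := rfl
    rw [e6]
    ring
  have hTp : ∀ i, ∑ j, pd j f x * T x i j = 0 := by
    intro i
    rw [← h.grad i]
    exact Finset.sum_congr rfl fun j _ => by ring
  have e3 : ∑ i, ∑ j, K x i j * K x i j =
      sg f u x ^ 2 * q2 f x + κ x ^ 2 * (W2 f x - 1) ^ 2 + (∑ i, ∑ j, T x i j ^ 2) +
        2 * sg f u x * κ x * s f x + 2 * sg f u x * ∑ i, ∑ j, T x i j * H f i j x := by
    have e : ∀ i j, K x i j * K x i j = sg f u x ^ 2 * (H f i j x * H f i j x) +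
        κ x ^ 2 * (pd i f x * pd i f x * (pd j f x * pd j f x)) + T x i j ^ 2 +
        2 * sg f u x * κ x * (pd i f x * (pd j f x * H f i j x)) +
        2 * sg f u x * (T x i j * H f i j x) +
        2 * κ x * (pd i f x * (pd j f x * T x i j)) := by
      intro i j
      rw [h.eq']; ring
    simp only [e, Finset.sum_add_distrib, ← Finset.mul_sum, sum_pd_sq, sum_pd_H, sum_pd_h, hTp,
      mul_zero, Finset.sum_const_zero]
    rw [← Finset.sum_mul, sum_pd_sq]
    have e7 : ∑ i, ∑ k, H f i k x * H f i k x = q2 f x := rfl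
    rw [e7]
    ring
  rw [e1, e2, e3]
  ring

/-- The contraction of the momentum tensor with the Hessian. -/
lemma Form.ctr (h : Form f u κ T K x) (hf : Smooth f) (hs : ∀ x i j, K x i j = K x j i) :
    ∑ i, ∑ j, ∑ k, ∑ l, up (gF f) i k x * up (gF f) j l x * momT (gF f) K x i j * H f k l x =
      sg f u x * q2 f x + κ x * s f x + (∑ i, ∑ j, T x i j * H f i j x) -
        (sg f u x * (L f x - s f x / W2 f x) + κ x * (W2 f x - 1) / W2 f x) * (L f x + s f x) -
        2 * (sg f u x * (h2 f x - (W2 f x * L f x - s f x) * s f x)) / W2 f x +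
        sg f u x * (s f x - (W2 f x * L f x - s f x) * (W2 f x - 1)) * s f x / W2 f x ^ 2 := by
  rw [ctr_gF f x (momT (gF f) K x) (fun k l => H f k l x) (fun i j => momT_symm hs x i j)
    (fun i j => H_symm hf i j x)]
  have e1 : ∀ i, ∑ j, pd j f x * momT (gF f) K x i j = H247E.aK f K i x := by
    intro i
    unfold H247E.aK
    exact Finset.sum_congr rfl fun j _ => by ring
  simp only [e1, sum_pd_H, h.pa hf, sum_pd_h]
  have e2 : ∑ i, H247E.aK f K i x * H247E.h f i x =
      sg f u x * (h2 f x - (W2 f x * L f x - s f x) * s f x) := by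
    have e : ∀ i, H247E.aK f K i x * H247E.h f i x = sg f u x * (H247E.h f i x * H247E.h f i x) -
        sg f u x * (W2 f x * L f x - s f x) * (pd i f x * H247E.h f i x) := by
      intro i
      rw [h.aK hf]; ring
    simp only [e, Finset.sum_sub_distrib, ← Finset.mul_sum, sum_pd_h]
    have e6 : ∑ i, H247E.h f i x * H247E.h f i x = h2 f x := rfl
    rw [e6]; ring
  have e3 : ∑ i, ∑ j, momT (gF f) K x i j * H f i j x =
      sg f u x * q2 f x + κ x * s f x + (∑ i, ∑ j, T x i j * H f i j x) -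
        (sg f u x * (L f x - s f x / W2 f x) + κ x * (W2 f x - 1) / W2 f x) *
          (L f x + s f x) := by
    have e : ∀ i j, momT (gF f) K x i j * H f i j x = sg f u x * (H f i j x * H f i j x) +
        κ x * (pd i f x * (pd j f x * H f i j x)) + T x i j * H f i j x -
        P366.Stmt.tr (gF f) K x * ((if i = j then 1 else 0) * H f i j x) -
        P366.Stmt.tr (gF f) K x * (pd i f x * (pd j f x * H f i j x)) := by
      intro i j
      unfold momT gF
      rw [h.eq']; ring
    simp only [e, Finset.sum_add_distrib, Finset.sum_sub_distrib, ← Finset.mul_sum, sum_pd_H,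
      sum_pd_h, ite_mul, one_mul, zero_mul, Finset.sum_ite_eq, Finset.mem_univ, if_true]
    rw [h.trK hf]
    have e4 : ∑ k, H f k k x = L f x := rfl
    have e7 : ∑ i, ∑ k, H f i k x * H f i k x = q2 f x := rfl
    rw [e4, e7]
    ring
  rw [e2, e3]

/-- The energy density. -/
lemma Form.mu (h : Form f u κ T K x) (hf : Smooth f) (hs : ∀ x i j, K x i j = K x j i) :
    2 * P366.Stmt.mu (gF f) K x = (1 - u x ^ 2) * scal (gF f) x - 2 * sg f u x *
      (∑ i, ∑ j, ∑ k, ∑ l, up (gF f) i k x * up (gF f) j l x * momT (gF f) K x i j *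
        H f k l x) - ∑ i, ∑ j, T x i j ^ 2 := by
  have hW := W2_ne f x
  unfold P366.Stmt.mu
  rw [h.trK hf, h.normSq hf (hs x), h.ctr hf hs, scal_gF hf]
  have e : u x ^ 2 = sg f u x ^ 2 * W2 f x := by
    unfold sg
    rw [div_pow, sqrtW_sq]
    field_simp
  rw [e]
  field_simp
  ring

end

/-- The divergence of `(1 + u²) Y` in terms of the energy and momentum densities. -/
theorem div_Z_form {f u κ : E n → ℝ} (hf : Smooth f) (hu : Smooth u) {T K : Field n} {x : E n}
    (hK : ∀ i j, Smooth (fun x => K x i j)) (hs : ∀ x i j, K x i j = K x j i)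
    (h : ∀ᶠ y in 𝓝 x, Form f u κ T K y) :
    ∑ i, pd i (fun y => (1 + u y ^ 2) * Y f i y) x = 2 * P366.Stmt.mu (gF f) K x -
      2 * sg f u x * (∑ j, pd j f x * mom (gF f) K j x) + ∑ i, ∑ j, T x i j ^ 2 := by
  have hW := W2_ne f x
  have hp := sqrtW_pos f x
  have h1 := div_VK hf hK hs x
  have h2 : ∑ i, pd i (VK f K i) x = -(u x * scal (gF f) x + ∑ i, pd i u x * Y f i x) := by
    have e : ∀ i, pd i (VK f K i) x = -(u x * pd i (Y f i) x + pd i u x * Y f i x) := by
      intro i
      have h3 := ((HP.sm hu i x).mul (HP.sm (smooth_Y hf i) i x)).neg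
      have h4 := h3.congr (g := VK f K i) (by
        filter_upwards [h] with y hy
        exact hy.VK hf i)
      rw [h4.pd]
      ring
    simp only [e, Finset.sum_neg_distrib, Finset.sum_add_distrib, ← Finset.mul_sum, div_Y hf]
  rw [div_Z hf hu, h.self_of_nhds.mu hf hs]
  rw [h2] at h1
  set C := ∑ i, ∑ j, ∑ k, ∑ l, up (gF f) i k x * up (gF f) j l x * momT (gF f) K x i j *
        H f k l x
  set J := ∑ j, pd j f x * mom (gF f) K j x
  set Q := ∑ i, pd i u x * Y f i x
  have h5 : sg f u x * J + sg f u x * C = -(u x * (u x * scal (gF f) x + Q)) := by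
    have : sg f u x * J + sg f u x * C = u x * (J / √(W2 f x) + C / √(W2 f x)) := by
      unfold sg; ring
    rw [this, ← h1]; ring
  linear_combination 2 * h5

/-- The divergence of `(1 + u²) Y` is nonnegative. -/
theorem div_Z_form_nonneg {f u κ : E n → ℝ} (hf : Smooth f) (hu : Smooth u) {T K : Field n}
    {x : E n} (hK : ∀ i j, Smooth (fun x => K x i j)) (hs : ∀ x i j, K x i j = K x j i)
    (h : ∀ᶠ y in 𝓝 x, Form f u κ T K y)
    (hdec : covNorm (gF f) (mom (gF f) K) x ≤ P366.Stmt.mu (gF f) K x)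
    (hun : u x ^ 2 * ∑ k, pd k f x ^ 2 ≤ 1) :
    0 ≤ ∑ i, pd i (fun y => (1 + u y ^ 2) * Y f i y) x := by
  have hW := W2_pos f x
  have hW1 := one_le_W2 f x
  have hp0 := sqrtW_pos f x
  have hp : ∑ i, pd i f x ^ 2 = W2 f x - 1 := by unfold W2; ring
  rw [div_Z_form hf hu hK hs h]
  have hT : 0 ≤ ∑ i, ∑ j, T x i j ^ 2 :=
    Finset.sum_nonneg fun i _ => Finset.sum_nonneg fun j _ => sq_nonneg _
  have h1 := grad_le (f := f) (mom (gF f) K) x
  rw [Real.sqrt_mul hW.le] at h1
  set J := ∑ j, pd j f x * mom (gF f) K j x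
  have hmu0 : 0 ≤ P366.Stmt.mu (gF f) K x := le_trans (Real.sqrt_nonneg _) hdec
  have h4 : |u x| * √(W2 f x - 1) ≤ 1 := by
    rw [hp] at hun
    have h5 : (|u x| * √(W2 f x - 1)) ^ 2 ≤ 1 := by
      rw [mul_pow, sq_abs, Real.sq_sqrt (by linarith)]
      exact hun
    have h6 : 0 ≤ |u x| * √(W2 f x - 1) := by positivity
    nlinarith
  have h7 : |sg f u x * J| ≤ P366.Stmt.mu (gF f) K x := by
    unfold sg
    rw [abs_mul, abs_div, abs_of_pos hp0]
    calc |u x| / √(W2 f x) * |J|
        ≤ |u x| / √(W2 f x) * (√(W2 f x) * √(W2 f x - 1) * covNorm (gF f) (mom (gF f) K) x) :=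
          mul_le_mul_of_nonneg_left h1 (by positivity)
      _ = (|u x| * √(W2 f x - 1)) * covNorm (gF f) (mom (gF f) K) x := by
          field_simp
      _ ≤ 1 * covNorm (gF f) (mom (gF f) K) x :=
          mul_le_mul_of_nonneg_right h4 (Real.sqrt_nonneg _)
      _ ≤ P366.Stmt.mu (gF f) K x := by rw [one_mul]; exact hdec
  have h8 := le_of_abs_le h7
  linarith

end Vale.Agent.H247E
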