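import Vale.Agent.P366.H247.Div

/-! P366, class E1: general second fundamental forms. -/

set_option linter.all false

open MeasureTheory Metric Filter Topology Set
open scoped ContDiff ENNReal

noncomputable section
namespace Vale.Agent.H247E
open Vale.Agent.P366.Stmt Vale.Agent.P366.T2

variable {n : ℕ}

/-- the momentum tensor on the gradient -/
def aK (f : E n → ℝ) (K : Field n) (i : Fin n) (x : E n) : ℝ :=
  ∑ j, momT (gF f) K x i j * pd j f x

/-- the momentum field of the gradient -/
def VK (f : E n → ℝ) (K : Field n) (i : Fin n) (x : E n) : ℝ :=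
  (aK f K i x - pd i f x * (∑ m, pd m f x * aK f K m x) / W2 f x) / √(W2 f x)

section

variable {f : E n → ℝ} (hf : Smooth f) {K : Field n} (hK : ∀ i j, Smooth (fun x => K x i j))
include hf hK

lemma smooth_tr : Smooth (tr (gF f) K) := by
  unfold tr Smooth
  refine ContDiff.sum fun i _ => ContDiff.sum fun j _ => ContDiff.mul ?_ (hK i j)
  have : up (gF f) i j = fun x => (if i = j then (1 : ℝ) else 0) - pd i f x * pd j f x / W2 f x :=
    funext fun x => up_gF f i j x
  rw [this]
  exact contDiff_const.sub (ContDiff.div ((smooth_pd' hf i).mul (smooth_pd' hf j)) (smooth_W2 hf)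
    (fun x => W2_ne f x))

lemma smooth_momT (i j : Fin n) : Smooth (fun x => momT (gF f) K x i j) := by
  unfold momT Smooth
  exact ContDiff.sub (hK i j) (ContDiff.mul (smooth_tr hf hK) (smooth_gF hf i j))

lemma smooth_aK (i : Fin n) : Smooth (aK f K i) := by
  unfold aK Smooth
  exact ContDiff.sum fun j _ => ContDiff.mul (smooth_momT hf hK i j) (smooth_pd' hf j)

omit hK in
lemma cov_mom (k i j : Fin n) (x : E n) :
    ∑ l, (chr (gF f) l k i x * momT (gF f) K x l j + chr (gF f) l k j x * momT (gF f) K x i l) =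
      H f k i x / W2 f x * (∑ l, pd l f x * momT (gF f) K x l j) +
      H f k j x / W2 f x * (∑ l, pd l f x * momT (gF f) K x i l) := by
  rw [Finset.mul_sum, Finset.mul_sum, ← Finset.sum_add_distrib]
  refine Finset.sum_congr rfl fun l _ => ?_
  rw [chr_gF hf, chr_gF hf]
  ring

omit hf hK in
lemma momT_symm (hs : ∀ x i j, K x i j = K x j i) (x : E n) (i j : Fin n) :
    momT (gF f) K x i j = momT (gF f) K x j i := by
  unfold momT gF
  rw [hs x i j, mul_comm (pd i f x)]
  simp only [eq_comm (a := i) (b := j)]

/-- the divergence of the momentum field of the gradient -/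
lemma div_VK (hs : ∀ x i j, K x i j = K x j i) (x : E n) :
    ∑ i, pd i (VK f K i) x = (∑ j, pd j f x * mom (gF f) K j x) / √(W2 f x) +
      (∑ i, ∑ j, ∑ k, ∑ l, up (gF f) i k x * up (gF f) j l x * momT (gF f) K x i j * H f k l x) /
        √(W2 f x) := by
  have hW := W2_ne f x
  have hp := sqrtW_pos f x
  have hq := sqrtW_sq f x
  -- the momentum density on the gradient
  have hpa : ∀ j, ∑ l, pd l f x * momT (gF f) K x l j = aK f K j x := by
    intro j
    unfold aK
    refine Finset.sum_congr rfl fun l _ => ?_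
    rw [momT_symm hs x l j]; ring
  have hpa' : ∀ i, ∑ l, pd l f x * momT (gF f) K x i l = aK f K i x := by
    intro i
    unfold aK
    exact Finset.sum_congr rfl fun l _ => by ring
  set ap := ∑ m, pd m f x * aK f K m x with hap
  have hda : ∀ k i, HP k (aK f K i) (∑ j, (pd k (fun y => momT (gF f) K y i j) x * pd j f x +
      momT (gF f) K x i j * H f k j x)) x := fun k i =>
    HP.sum (k := k) (x := x) Finset.univ
      (fun j _ => (HP.sm (smooth_momT hf hK i j) k x).mul (HP_pd hf k j x))
  have hJ : ∑ j, pd j f x * mom (gF f) K j x =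
      ∑ i, ∑ k, up (gF f) i k x * (pd k (aK f K i) x - (∑ j, momT (gF f) K x i j * H f k j x) -
        H f k i x / W2 f x * ap - h f k x / W2 f x * aK f K i x) := by
    unfold mom
    simp only [cov_mom hf, hpa, hpa', Finset.mul_sum]
    rw [Finset.sum_comm]
    refine Finset.sum_congr rfl fun i _ => ?_
    rw [Finset.sum_comm]
    refine Finset.sum_congr rfl fun k _ => ?_
    have e2 : ∀ j, pd j f x * (up (gF f) i k x * (pd k (fun y => momT (gF f) K y i j) x -
        (H f k i x / W2 f x * aK f K j x + H f k j x / W2 f x * aK f K i x))) =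
        up (gF f) i k x * (pd k (fun y => momT (gF f) K y i j) x * pd j f x +
          momT (gF f) K x i j * H f k j x) - up (gF f) i k x * (momT (gF f) K x i j * H f k j x) -
        up (gF f) i k x * H f k i x / W2 f x * (pd j f x * aK f K j x) -
        up (gF f) i k x * aK f K i x / W2 f x * (pd j f x * H f k j x) := fun j => by ring
    rw [Finset.sum_congr rfl fun j _ => e2 j]
    rw [Finset.sum_sub_distrib, Finset.sum_sub_distrib, Finset.sum_sub_distrib]
    simp only [← Finset.mul_sum]
    rw [← (hda k i).pd, sum_pd_H, ← hap]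
    ring
  -- the contraction
  have hC : ∑ i, ∑ j, ∑ k, ∑ l, up (gF f) i k x * up (gF f) j l x * momT (gF f) K x i j *
      H f k l x = ∑ i, ∑ k, up (gF f) i k x * ((∑ j, momT (gF f) K x i j * H f k j x) -
        aK f K i x * h f k x / W2 f x) := by
    refine Finset.sum_congr rfl fun i _ => ?_
    rw [Finset.sum_comm]
    refine Finset.sum_congr rfl fun k _ => ?_
    have e1 : ∀ j, ∑ l, up (gF f) i k x * up (gF f) j l x * momT (gF f) K x i j * H f k l x =
        up (gF f) i k x * (momT (gF f) K x i j * H f k j x -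
          h f k x / W2 f x * (pd j f x * momT (gF f) K x i j)) := by
      intro j
      have e2 : ∀ l, up (gF f) i k x * up (gF f) j l x * momT (gF f) K x i j * H f k l x =
          up (gF f) i k x * momT (gF f) K x i j * (up (gF f) j l x * H f k l x) := fun l => by ring
      simp only [e2, ← Finset.mul_sum, up_mul, sum_pd_H]
      ring
    rw [Finset.sum_congr rfl fun j _ => e1 j]
    rw [← Finset.mul_sum, Finset.sum_sub_distrib, ← Finset.mul_sum, hpa']
    ring
  -- the left side
  have hdap : ∀ k, HP k (fun y => ∑ m, pd m f y * aK f K m y)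
      (∑ m, (H f k m x * aK f K m x + pd m f x * pd k (aK f K m) x)) x := fun k =>
    HP.sum (k := k) (x := x) Finset.univ
      (fun m _ => (HP_pd hf k m x).mul (HP.sm (smooth_aK hf hK m) k x))
  have hV : ∀ i, pd i (VK f K i) x = (pd i (aK f K i) x -
      H f i i x * ap / W2 f x - pd i f x / W2 f x * (∑ m, H f i m x * aK f K m x) -
      pd i f x / W2 f x * (∑ m, pd m f x * pd i (aK f K m) x) +
      2 * ap / W2 f x ^ 2 * (h f i x * pd i f x) - 1 / W2 f x * (h f i x * aK f K i x) +
      ap / W2 f x ^ 2 * (h f i x * pd i f x)) / √(W2 f x) := by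
    intro i
    have h1 := HP.div ((HP.sm (smooth_aK hf hK i) i x).sub
      (HP.div ((HP_pd hf i i x).mul (hdap i)) (HP_W2 hf i x) (W2_ne f x)))
      (HP.sqrt (HP_W2 hf i x) (W2_ne f x)) hp.ne'
    have h2 : pd i (VK f K i) x = _ := h1.pd
    rw [h2, hq, ← hap]
    rw [Finset.sum_add_distrib]
    set A := ∑ m, H f i m x * aK f K m x
    set B := ∑ m, pd m f x * pd i (aK f K m) x
    have hw2 : √(W2 f x) * √(W2 f x) = W2 f x := by rw [← sq, hq]
    rw [div_eq_div_iff hW hp.ne']
    field_simp
    rw [hq]
    ring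
  have hsum : ∑ i, pd i (VK f K i) x = (∑ i, pd i (aK f K i) x - L f x * ap / W2 f x -
      2 * (∑ i, h f i x * aK f K i x) / W2 f x -
      (∑ i, pd i f x * ∑ m, pd m f x * pd i (aK f K m) x) / W2 f x +
      3 * ap * s f x / W2 f x ^ 2) / √(W2 f x) := by
    simp only [hV]
    rw [← Finset.sum_div]
    congr 1
    have e : ∀ i, (pd i (aK f K i) x -
      H f i i x * ap / W2 f x - pd i f x / W2 f x * (∑ m, H f i m x * aK f K m x) -
      pd i f x / W2 f x * (∑ m, pd m f x * pd i (aK f K m) x) +
      2 * ap / W2 f x ^ 2 * (h f i x * pd i f x) - 1 / W2 f x * (h f i x * aK f K i x) +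
      ap / W2 f x ^ 2 * (h f i x * pd i f x)) =
      pd i (aK f K i) x - ap / W2 f x * H f i i x -
      1 / W2 f x * (∑ m, aK f K m x * (pd i f x * H f i m x)) -
      1 / W2 f x * (pd i f x * ∑ m, pd m f x * pd i (aK f K m) x) +
      3 * ap / W2 f x ^ 2 * (h f i x * pd i f x) - 1 / W2 f x * (h f i x * aK f K i x) := by
      intro i
      have e' : ∑ m, aK f K m x * (pd i f x * H f i m x) =
          pd i f x * ∑ m, H f i m x * aK f K m x := by
        rw [Finset.mul_sum]
        exact Finset.sum_congr rfl fun m _ => by ring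
      rw [e']
      ring
    rw [Finset.sum_congr rfl fun i _ => e i]
    rw [Finset.sum_sub_distrib, Finset.sum_add_distrib, Finset.sum_sub_distrib,
      Finset.sum_sub_distrib, Finset.sum_sub_distrib]
    simp only [← Finset.mul_sum]
    rw [Finset.sum_comm (f := fun i m => aK f K m x * (pd i f x * H f i m x))]
    simp only [← Finset.mul_sum, sum_pd_H' hf]
    have e4 : ∑ k, H f k k x = L f x := rfl
    have e5 : ∑ k, h f k x * pd k f x = s f x := rfl
    have e6 : ∑ m, aK f K m x * h f m x = ∑ i, h f i x * aK f K i x :=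
      Finset.sum_congr rfl fun i _ => by ring
    rw [e4, e5, e6]
    ring
  rw [hsum, hJ, hC, ← add_div, ← Finset.sum_add_distrib]
  congr 1
  have e7 : ∀ i, (∑ k, up (gF f) i k x * (pd k (aK f K i) x -
      (∑ j, momT (gF f) K x i j * H f k j x) - H f k i x / W2 f x * ap -
        h f k x / W2 f x * aK f K i x) +
      ∑ k, up (gF f) i k x * ((∑ j, momT (gF f) K x i j * H f k j x) -
        aK f K i x * h f k x / W2 f x)) =
      ∑ k, up (gF f) i k x * (pd k (aK f K i) x - ap / W2 f x * H f k i x -
        2 * aK f K i x / W2 f x * h f k x) := by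
    intro i
    rw [← Finset.sum_add_distrib]
    exact Finset.sum_congr rfl fun k _ => by ring
  rw [Finset.sum_congr rfl fun i _ => e7 i, up_dbl]
  have e8 : ∀ i, ∑ k, pd k f x * (pd k (aK f K i) x - ap / W2 f x * H f k i x -
        2 * aK f K i x / W2 f x * h f k x) =
      (∑ k, pd k f x * pd k (aK f K i) x) - ap / W2 f x * h f i x -
        2 * s f x / W2 f x * aK f K i x := by
    intro i
    have e : ∀ k, pd k f x * (pd k (aK f K i) x - ap / W2 f x * H f k i x -
        2 * aK f K i x / W2 f x * h f k x) = pd k f x * pd k (aK f K i) x -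
        ap / W2 f x * (pd k f x * H f k i x) - 2 * aK f K i x / W2 f x * (pd k f x * h f k x) :=
      fun k => by ring
    rw [Finset.sum_congr rfl fun k _ => e k, Finset.sum_sub_distrib, Finset.sum_sub_distrib]
    simp only [← Finset.mul_sum, sum_pd_H' hf, sum_pd_h]
    ring
  have e9 : ∑ i, pd i f x * ((∑ k, pd k f x * pd k (aK f K i) x) - ap / W2 f x * h f i x -
        2 * s f x / W2 f x * aK f K i x) =
      (∑ i, pd i f x * ∑ m, pd m f x * pd i (aK f K m) x) - 3 * ap * s f x / W2 f x := by
    have e : ∀ i, pd i f x * ((∑ k, pd k f x * pd k (aK f K i) x) - ap / W2 f x * h f i x -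
        2 * s f x / W2 f x * aK f K i x) = pd i f x * (∑ k, pd k f x * pd k (aK f K i) x) -
        ap / W2 f x * (pd i f x * h f i x) - 2 * s f x / W2 f x * (pd i f x * aK f K i x) :=
      fun i => by ring
    rw [Finset.sum_congr rfl fun i _ => e i, Finset.sum_sub_distrib, Finset.sum_sub_distrib]
    simp only [← Finset.mul_sum, sum_pd_h]
    rw [← hap]
    have e' : ∑ i, pd i f x * ∑ k, pd k f x * pd k (aK f K i) x =
        ∑ i, pd i f x * ∑ m, pd m f x * pd i (aK f K m) x := by
      simp only [Finset.mul_sum]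
      rw [Finset.sum_comm]
      exact Finset.sum_congr rfl fun i _ => Finset.sum_congr rfl fun k _ => by ring
    rw [e']
    ring
  simp only [e8]
  rw [e9]
  have e10 : ∑ i, (pd i (aK f K i) x - ap / W2 f x * H f i i x -
        2 * aK f K i x / W2 f x * h f i x) =
      ∑ i, pd i (aK f K i) x - ap / W2 f x * L f x -
        2 * (∑ i, h f i x * aK f K i x) / W2 f x := by
    have e : ∀ i, (pd i (aK f K i) x - ap / W2 f x * H f i i x -
        2 * aK f K i x / W2 f x * h f i x) = pd i (aK f K i) x - ap / W2 f x * H f i i x -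
        2 / W2 f x * (h f i x * aK f K i x) := fun i => by ring
    rw [Finset.sum_congr rfl fun i _ => e i, Finset.sum_sub_distrib, Finset.sum_sub_distrib]
    simp only [← Finset.mul_sum]
    have e4 : ∑ k, H f k k x = L f x := rfl
    rw [e4]
    ring
  rw [e10]
  field_simp
  ring

end

end Vale.Agent.H247E
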