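import Vale.Agent.P366.H247.Dom

/-! P366, class E1: the energy. -/

set_option linter.all false

open MeasureTheory Metric Filter Topology Set
open scoped ContDiff ENNReal RealInnerProductSpace

noncomputable section
namespace Vale.Agent.H247E
open Vale.Agent.P366.Stmt Vale.Agent.P366.T2
open Vale.Agent.P366 (sphM sphI flux dvg norm_smul_sph)

variable {n : ℕ}

/-- the integrand of the energy -/
lemma energy_integrand {f : E n → ℝ} (hf : Smooth f) (x : E n) (i : Fin n) :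
    ∑ j, (pd j (fun y => gF f y i j) x - pd i (fun y => gF f y j j) x) = W2 f x * Y f i x := by
  have hW := W2_ne f x
  have e : ∀ j, pd j (fun y => gF f y i j) x - pd i (fun y => gF f y j j) x =
      pd i f x * H f j j x - H f i j x * pd j f x := by
    intro j
    rw [(HP_gF hf j i j x).pd, (HP_gF hf i j j x).pd, H_symm hf j i]
    ring
  simp only [e, Finset.sum_sub_distrib, ← Finset.mul_sum]
  unfold Y
  have e4 : ∑ k, H f k k x = L f x := rfl
  have e5 : ∑ j, H f i j x * pd j f x = h f i x := rfl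
  rw [e4, e5]
  field_simp

section

variable {D : Exterior n} {N : ℕ} {c : Fin N → E n} {r : Fin N → ℝ} {f u κ : E n → ℝ}
  {T : Field n} (h : Data D c r f u κ T)
include h

lemma Data.far : ∃ R0 : ℝ, 0 < R0 ∧ (∀ a, ‖c a‖ + r a ≤ R0) ∧
    ∀ x, R0 < ‖x‖ → ∀ a, r a < ‖x - c a‖ := by
  refine ⟨1 + ∑ a, (‖c a‖ + r a), ?_, ?_, ?_⟩
  · have : 0 ≤ ∑ a, (‖c a‖ + r a) := Finset.sum_nonneg fun a _ => by
      have := h.hr a; positivity
    linarith
  · intro a
    have := Finset.single_le_sum (f := fun a => ‖c a‖ + r a) (fun b _ => by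
      have := h.hr b; positivity) (Finset.mem_univ a)
    linarith
  · intro x hx a
    have h1 := Finset.single_le_sum (f := fun a => ‖c a‖ + r a) (fun b _ => by
      have := h.hr b; positivity) (Finset.mem_univ a)
    have h2 : ‖x‖ ≤ ‖x - c a‖ + ‖c a‖ := by
      have := norm_add_le (x - c a) (c a)
      simpa using this
    linarith

lemma Data.energy_eq {x : E n} (hx : ∀ a, r a < ‖x - c a‖) (i : Fin n) :
    ∑ j, (pd j (fun y => D.g y i j) x - pd i (fun y => D.g y j j) x) = W2 f x * Y f i x := by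
  rw [← energy_integrand h.hf]
  have e : ∀ i j k, pd k (fun y => D.g y i j) x = pd k (fun y => gF f y i j) x := by
    intro i j k
    unfold pd
    refine Filter.EventuallyEq.lineDeriv_eq ?_
    filter_upwards [h.ev_g hx] with y hy
    rw [hy]
  simp only [e]

/-- the decay of the difference of the fields -/
lemma Data.decay (hn : 3 ≤ n) (hAF : D.IsAF) (hu : BigO (((n : ℝ) - 2) / 4) u) :
    ∃ e : ℝ, 0 < e ∧ ∃ C R1 : ℝ, 1 ≤ R1 ∧ 0 ≤ C ∧ ∀ x : E n, R1 < ‖x‖ → ∀ i,
      |W2 f x * Y f i x - (1 + u x ^ 2) * Y f i x| ≤ C * ‖x‖ ^ (-((n : ℝ) - 1) - e) := by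
  obtain ⟨q, hq, hq2⟩ := hAF
  obtain ⟨R0, hR0, -, hfar⟩ := h.far
  obtain ⟨Cu, Ru, hCu⟩ := hu
  have hn3 : (3 : ℝ) ≤ n := by exact_mod_cast hn
  -- choose common constants
  have hg0 : ∀ i j : Fin n, ∃ C R : ℝ, ∀ x : E n, R < len x →
      |D.g x i j - if i = j then 1 else 0| ≤ C * len x ^ (-q) := fun i j => (hq2 i j i j).1
  have hg1 : ∀ i j k : Fin n, ∃ C R : ℝ, ∀ x : E n, R < len x →
      |pd k (fun x => D.g x i j) x| ≤ C * len x ^ (-(q + 1)) := fun i j k => (hq2 i j k k).2.1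
  choose C0 Ra hC0 using hg0
  choose C1 Rb hC1 using hg1
  set A0 : ℝ := ∑ i, ∑ j, |C0 i j| with hA0
  set A1 : ℝ := ∑ i, ∑ j, ∑ k, |C1 i j k| with hA1
  set RM : ℝ := 1 + |R0| + |Ru| + (∑ i, ∑ j, |Ra i j|) + ∑ i, ∑ j, ∑ k, |Rb i j k| with hRM
  have hs2 : ∀ (F : Fin n → Fin n → ℝ) (i j : Fin n), |F i j| ≤ ∑ i, ∑ j, |F i j| := by
    intro F i j
    calc |F i j| ≤ ∑ j, |F i j| := Finset.single_le_sum (f := fun j => |F i j|)
          (fun _ _ => abs_nonneg _) (Finset.mem_univ j)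
      _ ≤ ∑ i, ∑ j, |F i j| := Finset.single_le_sum (f := fun i => ∑ j, |F i j|)
          (fun _ _ => Finset.sum_nonneg fun _ _ => abs_nonneg _) (Finset.mem_univ i)
  have hs3 : ∀ (F : Fin n → Fin n → Fin n → ℝ) (i j k : Fin n),
      |F i j k| ≤ ∑ i, ∑ j, ∑ k, |F i j k| := by
    intro F i j k
    calc |F i j k| ≤ ∑ j, ∑ k, |F i j k| := hs2 (F i) j k
      _ ≤ ∑ i, ∑ j, ∑ k, |F i j k| := Finset.single_le_sum (f := fun i => ∑ j, ∑ k, |F i j k|)
          (fun _ _ => Finset.sum_nonneg fun _ _ => Finset.sum_nonneg fun _ _ => abs_nonneg _)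
          (Finset.mem_univ i)
  have hRa : ∀ i j, Ra i j ≤ RM := by
    intro i j
    have h1 := hs2 Ra i j
    have h2 := le_abs_self (Ra i j)
    have h3 : 0 ≤ ∑ i, ∑ j, ∑ k, |Rb i j k| := Finset.sum_nonneg fun _ _ =>
      Finset.sum_nonneg fun _ _ => Finset.sum_nonneg fun _ _ => abs_nonneg _
    have h4 := abs_nonneg R0
    have h5 := abs_nonneg Ru
    linarith
  have hRb : ∀ i j k, Rb i j k ≤ RM := by
    intro i j k
    have h1 := hs3 Rb i j k
    have h2 := le_abs_self (Rb i j k)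
    have h3 : 0 ≤ ∑ i, ∑ j, |Ra i j| := Finset.sum_nonneg fun _ _ =>
      Finset.sum_nonneg fun _ _ => abs_nonneg _
    have h4 := abs_nonneg R0
    have h5 := abs_nonneg Ru
    linarith
  have hRu : Ru ≤ RM := by
    have h1 := le_abs_self Ru
    have h3 : 0 ≤ ∑ i, ∑ j, |Ra i j| := Finset.sum_nonneg fun _ _ =>
      Finset.sum_nonneg fun _ _ => abs_nonneg _
    have h6 : 0 ≤ ∑ i, ∑ j, ∑ k, |Rb i j k| := Finset.sum_nonneg fun _ _ =>
      Finset.sum_nonneg fun _ _ => Finset.sum_nonneg fun _ _ => abs_nonneg _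
    have h4 := abs_nonneg R0
    linarith
  have hRR : R0 ≤ RM := by
    have h1 := le_abs_self R0
    have h3 : 0 ≤ ∑ i, ∑ j, |Ra i j| := Finset.sum_nonneg fun _ _ =>
      Finset.sum_nonneg fun _ _ => abs_nonneg _
    have h6 : 0 ≤ ∑ i, ∑ j, ∑ k, |Rb i j k| := Finset.sum_nonneg fun _ _ =>
      Finset.sum_nonneg fun _ _ => Finset.sum_nonneg fun _ _ => abs_nonneg _
    have h4 := abs_nonneg Ru
    linarith
  have hRM1 : 1 ≤ RM := by
    have h3 : 0 ≤ ∑ i, ∑ j, |Ra i j| := Finset.sum_nonneg fun _ _ =>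
      Finset.sum_nonneg fun _ _ => abs_nonneg _
    have h6 : 0 ≤ ∑ i, ∑ j, ∑ k, |Rb i j k| := Finset.sum_nonneg fun _ _ =>
      Finset.sum_nonneg fun _ _ => Finset.sum_nonneg fun _ _ => abs_nonneg _
    have h4 := abs_nonneg Ru
    have h5 := abs_nonneg R0
    linarith
  have hA00 : 0 ≤ A0 := Finset.sum_nonneg fun _ _ => Finset.sum_nonneg fun _ _ => abs_nonneg _
  have hA10 : 0 ≤ A1 := Finset.sum_nonneg fun _ _ => Finset.sum_nonneg fun _ _ =>
    Finset.sum_nonneg fun _ _ => abs_nonneg _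
  refine ⟨q - ((n : ℝ) / 2 - 1), by linarith, (n * A0 + Cu ^ 2) * (2 * n * A1), RM, hRM1,
    by positivity, ?_⟩
  intro x hx i
  have hx1 : 1 < ‖x‖ := lt_of_le_of_lt hRM1 hx
  have hx0 : 0 < ‖x‖ := by linarith
  have hU := hfar x (lt_of_le_of_lt hRR hx)
  have hlen : len x = ‖x‖ := rfl
  -- W2 - 1
  have hw : W2 f x - 1 ≤ n * A0 * ‖x‖ ^ (-((n : ℝ) / 2 - 1)) := by
    have e1 : W2 f x - 1 = ∑ k, (D.g x k k - 1) := by
      unfold W2
      have e : ∀ k, D.g x k k - 1 = pd k f x ^ 2 := by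
        intro k
        rw [h.hg x (h.U_sub hU)]
        unfold gF
        rw [if_pos rfl]; ring
      simp only [e]; ring
    rw [e1]
    have e2 : ∀ k, D.g x k k - 1 ≤ A0 * ‖x‖ ^ (-((n : ℝ) / 2 - 1)) := by
      intro k
      have h1 := hC0 k k x (by rw [hlen]; exact lt_of_le_of_lt (hRa k k) hx)
      rw [if_pos rfl, hlen] at h1
      have h2 : ‖x‖ ^ (-q) ≤ ‖x‖ ^ (-((n : ℝ) / 2 - 1)) :=
        Real.rpow_le_rpow_of_exponent_le hx1.le (by linarith)
      calc D.g x k k - 1 ≤ |D.g x k k - 1| := le_abs_self _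
        _ ≤ C0 k k * ‖x‖ ^ (-q) := h1
        _ ≤ A0 * ‖x‖ ^ (-q) := mul_le_mul_of_nonneg_right
            ((le_abs_self _).trans (hs2 C0 k k)) (Real.rpow_nonneg hx0.le _)
        _ ≤ A0 * ‖x‖ ^ (-((n : ℝ) / 2 - 1)) := mul_le_mul_of_nonneg_left h2 hA00
    calc ∑ k, (D.g x k k - 1) ≤ ∑ k : Fin n, A0 * ‖x‖ ^ (-((n : ℝ) / 2 - 1)) :=
          Finset.sum_le_sum fun k _ => e2 k
      _ = n * A0 * ‖x‖ ^ (-((n : ℝ) / 2 - 1)) := by
          rw [Finset.sum_const, Finset.card_univ, Fintype.card_fin, nsmul_eq_mul]; ring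
  -- u
  have hu2 : u x ^ 2 ≤ Cu ^ 2 * ‖x‖ ^ (-((n : ℝ) / 2 - 1)) := by
    have h1 := hCu x (by rw [hlen]; exact lt_of_le_of_lt hRu hx)
    rw [hlen] at h1
    have h2 : u x ^ 2 ≤ (Cu * ‖x‖ ^ (-(((n : ℝ) - 2) / 4))) ^ 2 := by
      rw [← sq_abs (u x)]
      exact pow_le_pow_left₀ (abs_nonneg _) h1 2
    have h3 : (‖x‖ ^ (-(((n : ℝ) - 2) / 4))) ^ 2 = ‖x‖ ^ (-((n : ℝ) / 2 - 1)) := by
      rw [← Real.rpow_natCast, ← Real.rpow_mul hx0.le]
      congr 1
      push_cast
      ring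
    rw [mul_pow, h3] at h2
    exact h2
  -- W2 * Y
  have hY : |W2 f x * Y f i x| ≤ 2 * n * A1 * ‖x‖ ^ (-(q + 1)) := by
    rw [← h.energy_eq hU i]
    have e1 : ∀ i j k, |pd k (fun x => D.g x i j) x| ≤ A1 * ‖x‖ ^ (-(q + 1)) := by
      intro i j k
      have h1 := hC1 i j k x (by rw [hlen]; exact lt_of_le_of_lt (hRb i j k) hx)
      rw [hlen] at h1
      exact h1.trans (mul_le_mul_of_nonneg_right ((le_abs_self _).trans (hs3 C1 i j k))
        (Real.rpow_nonneg hx0.le _))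
    calc |∑ j, (pd j (fun y => D.g y i j) x - pd i (fun y => D.g y j j) x)|
        ≤ ∑ j, |pd j (fun y => D.g y i j) x - pd i (fun y => D.g y j j) x| :=
          Finset.abs_sum_le_sum_abs _ _
      _ ≤ ∑ j : Fin n, (2 * A1 * ‖x‖ ^ (-(q + 1))) := by
          refine Finset.sum_le_sum fun j _ => ?_
          have h1 := e1 i j j
          have h2 := e1 j j i
          have h3 := abs_sub (pd j (fun y => D.g y i j) x) (pd i (fun y => D.g y j j) x)
          linarith
      _ = 2 * n * A1 * ‖x‖ ^ (-(q + 1)) := by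
          rw [Finset.sum_const, Finset.card_univ, Fintype.card_fin, nsmul_eq_mul]; ring
  have hY' : |Y f i x| ≤ 2 * n * A1 * ‖x‖ ^ (-(q + 1)) := by
    refine le_trans ?_ hY
    rw [abs_mul, abs_of_pos (W2_pos f x)]
    have := one_le_W2 f x
    nlinarith [abs_nonneg (Y f i x)]
  have hW1 := one_le_W2 f x
  have e1 : W2 f x * Y f i x - (1 + u x ^ 2) * Y f i x = (W2 f x - 1 - u x ^ 2) * Y f i x := by ring
  rw [e1, abs_mul]
  have hp0 : 0 ≤ ‖x‖ ^ (-((n : ℝ) / 2 - 1)) := Real.rpow_nonneg hx0.le _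
  have h1 : |W2 f x - 1 - u x ^ 2| ≤ (n * A0 + Cu ^ 2) * ‖x‖ ^ (-((n : ℝ) / 2 - 1)) := by
    rw [abs_le]
    constructor
    · have : 0 ≤ n * A0 * ‖x‖ ^ (-((n : ℝ) / 2 - 1)) := by positivity
      nlinarith [sq_nonneg (u x)]
    · have : 0 ≤ Cu ^ 2 * ‖x‖ ^ (-((n : ℝ) / 2 - 1)) := by positivity
      nlinarith [sq_nonneg (u x)]
  calc |W2 f x - 1 - u x ^ 2| * |Y f i x|
      ≤ (n * A0 + Cu ^ 2) * ‖x‖ ^ (-((n : ℝ) / 2 - 1)) * (2 * n * A1 * ‖x‖ ^ (-(q + 1))) :=
        mul_le_mul h1 hY' (abs_nonneg _) (by positivity)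
    _ = (n * A0 + Cu ^ 2) * (2 * n * A1) *
        (‖x‖ ^ (-((n : ℝ) / 2 - 1)) * ‖x‖ ^ (-(q + 1))) := by ring
    _ = (n * A0 + Cu ^ 2) * (2 * n * A1) *
        ‖x‖ ^ (-((n : ℝ) - 1) - (q - ((n : ℝ) / 2 - 1))) := by
        rw [← Real.rpow_add hx0]
        congr 2
        ring

/-- The energy is the limit of half the flux of `(1 + u²) Y`. -/
theorem Data.energy_lim (hn : 3 ≤ n) (hAF : D.IsAF) (hu : BigO (((n : ℝ) - 2) / 4) u) {m : ℝ}
    (hm : D.IsEnergy m) :
    Tendsto (fun R : ℝ => flux (fun i y => (1 + u y ^ 2) * Y f i y) R /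
      (2 * (((n : ℝ) - 1) * P366.omega n))) atTop (𝓝 m) := by
  obtain ⟨e, he, C, R1, hR1, hC0, hdec⟩ := h.decay hn hAF hu
  obtain ⟨R0, hR0, -, hfar⟩ := h.far
  have hne : Nonempty (Fin n) := ⟨⟨0, by omega⟩⟩
  have hnt : Nontrivial (E n) := inferInstance
  have hω : 0 < P366.omega n := Vale.Agent.P366.omega_pos'
  have hn1 : (0 : ℝ) < n - 1 := by
    have : (3 : ℝ) ≤ n := by exact_mod_cast hn
    linarith
  have hcov : Tendsto (fun R : ℝ => (C * n / (2 * ((n : ℝ) - 1))) * R ^ (-e)) atTop (𝓝 0) := by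
    have := (tendsto_rpow_neg_atTop he).const_mul (C * n / (2 * ((n : ℝ) - 1)))
    simpa using this
  have hlim := hm.sub (tendsto_const_nhds (x := (0 : ℝ)))
  rw [sub_zero] at hlim
  refine (tendsto_of_tendsto_of_dist hm ?_)
  refine squeeze_zero' (Eventually.of_forall fun R => dist_nonneg) ?_ hcov
  filter_upwards [eventually_gt_atTop (max R0 R1)] with R hR
  have hRR0 : R0 < R := (le_max_left _ _).trans_lt hR
  have hRR1 : R1 < R := (le_max_right _ _).trans_lt hR
  have hRpos : 0 < R := hR0.trans hRR0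
  rw [Real.dist_eq, Vale.Agent.P366.flx_eq]
  unfold flux P366.sphInt
  set W : Fin n → E n → ℝ := fun i y => (1 + u y ^ 2) * Y f i y with hWd
  have hWc : ∀ i, Continuous (W i) := fun i =>
    (continuous_const.add ((ContDiff.continuous h.hu).pow 2)).mul
      (ContDiff.continuous (smooth_Y h.hf i))
  -- the two sphere integrals
  have e1 : (∫ θ : sphere (0 : E n) 1, (fun x => ∑ i, (∑ j, (pd j (fun y => D.g y i j) x -
      pd i (fun y => D.g y j j) x)) / 2 * (x i / ‖x‖)) (R • (θ : E n))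
        ∂(volume : Measure (E n)).toSphere) =
      sphI (fun x => ∑ i, W2 f x * Y f i x / 2 * (x i / ‖x‖)) R := by
    unfold sphI
    refine integral_congr_ae (Eventually.of_forall fun θ => ?_)
    have hx : ‖R • (θ : E n)‖ = R := norm_smul_sph hRpos.le θ
    show ∑ i, (∑ j, (pd j (fun y => D.g y i j) (R • (θ : E n)) -
      pd i (fun y => D.g y j j) (R • (θ : E n)))) / 2 *
        ((R • (θ : E n)) i / ‖R • (θ : E n)‖) = _
    refine Finset.sum_congr rfl fun i _ => ?_
    rw [h.energy_eq (hfar _ (by rw [hx]; exact hRR0)) i]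
  rw [e1]
  have hc1 : ContinuousOn (fun x : E n => ∑ i, W2 f x * Y f i x / 2 * (x i / ‖x‖)) {x | 0 < ‖x‖} := by
    refine continuousOn_finsetSum _ fun i _ => ?_
    refine ContinuousOn.mul ?_
      (Vale.Agent.P366.contDiffOn_coord_div (m := 0) le_rfl i).continuousOn
    exact (((ContDiff.continuous (smooth_W2 h.hf)).mul
      (ContDiff.continuous (smooth_Y h.hf i))).div_const 2).continuousOn
  have hc2 : ContinuousOn (fun x : E n => 1 / 2 * ∑ i, W i x * (x i / ‖x‖)) {x | 0 < ‖x‖} := by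
    refine continuousOn_const.mul (continuousOn_finsetSum _ fun i _ => ?_)
    exact (hWc i).continuousOn.mul
      (Vale.Agent.P366.contDiffOn_coord_div (m := 0) le_rfl i).continuousOn
  have e2 : R ^ (n - 1) * sphI (fun x => ∑ i, W2 f x * Y f i x / 2 * (x i / ‖x‖)) R /
      (((n : ℝ) - 1) * P366.omega n) - R ^ (n - 1) * sphI (fun x => ∑ i, W i x * (x i / ‖x‖)) R /
      (2 * (((n : ℝ) - 1) * P366.omega n)) =
      R ^ (n - 1) / (((n : ℝ) - 1) * P366.omega n) *
        sphI (fun x => ∑ i, W2 f x * Y f i x / 2 * (x i / ‖x‖) -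
          1 / 2 * ∑ i, W i x * (x i / ‖x‖)) R := by
    rw [Vale.Agent.P366.sphI_sub le_rfl hRpos hc1 hc2, Vale.Agent.P366.sphI_const_mul]
    field_simp
  rw [e2, abs_mul, abs_of_nonneg (by positivity)]
  have hb : |sphI (fun x => ∑ i, W2 f x * Y f i x / 2 * (x i / ‖x‖) -
          1 / 2 * ∑ i, W i x * (x i / ‖x‖)) R| ≤
      (n * (C * R ^ (-((n : ℝ) - 1) - e)) / 2) * P366.omega n := by
    have hpt : ∀ x : E n, ‖x‖ = R → |∑ i, W2 f x * Y f i x / 2 * (x i / ‖x‖) -
          1 / 2 * ∑ i, W i x * (x i / ‖x‖)| ≤ n * (C * R ^ (-((n : ℝ) - 1) - e)) / 2 := by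
      intro x hx
      have e3 : ∑ i, W2 f x * Y f i x / 2 * (x i / ‖x‖) - 1 / 2 * ∑ i, W i x * (x i / ‖x‖) =
          ∑ i, (W2 f x * Y f i x - (1 + u x ^ 2) * Y f i x) / 2 * (x i / ‖x‖) := by
        rw [Finset.mul_sum, ← Finset.sum_sub_distrib]
        refine Finset.sum_congr rfl fun i _ => ?_
        simp only [hWd]
        ring
      rw [e3]
      calc |∑ i, (W2 f x * Y f i x - (1 + u x ^ 2) * Y f i x) / 2 * (x i / ‖x‖)|
          ≤ ∑ i, |(W2 f x * Y f i x - (1 + u x ^ 2) * Y f i x) / 2 * (x i / ‖x‖)| :=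
            Finset.abs_sum_le_sum_abs _ _
        _ ≤ ∑ i : Fin n, (C * R ^ (-((n : ℝ) - 1) - e)) / 2 := by
            refine Finset.sum_le_sum fun i _ => ?_
            have h1 := hdec x (by rw [hx]; exact hRR1) i
            rw [hx] at h1
            have h2 : |x i / ‖x‖| ≤ 1 := by
              rw [abs_div, abs_norm]
              have hx0 : 0 < ‖x‖ := by rw [hx]; exact hRpos
              rw [div_le_one hx0]
              have := PiLp.norm_apply_le x i
              simpa using this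
            rw [abs_mul, abs_div, abs_two]
            calc |W2 f x * Y f i x - (1 + u x ^ 2) * Y f i x| / 2 * |x i / ‖x‖|
                ≤ |W2 f x * Y f i x - (1 + u x ^ 2) * Y f i x| / 2 * 1 :=
                  mul_le_mul_of_nonneg_left h2 (by positivity)
              _ ≤ (C * R ^ (-((n : ℝ) - 1) - e)) / 2 := by rw [mul_one]; linarith
        _ = n * (C * R ^ (-((n : ℝ) - 1) - e)) / 2 := by
            rw [Finset.sum_const, Finset.card_univ, Fintype.card_fin, nsmul_eq_mul]; ring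
    have := norm_integral_le_of_norm_le_const (μ := sphM n)
      (f := fun θ : sphere (0 : E n) 1 => (fun x : E n => ∑ i, W2 f x * Y f i x / 2 * (x i / ‖x‖) -
          1 / 2 * ∑ i, W i x * (x i / ‖x‖)) (R • (θ : E n)))
      (C := n * (C * R ^ (-((n : ℝ) - 1) - e)) / 2) (Eventually.of_forall fun θ => by
        rw [Real.norm_eq_abs]; exact hpt _ (norm_smul_sph hRpos.le θ))
    rw [measureReal_def] at this
    exact this
  calc R ^ (n - 1) / (((n : ℝ) - 1) * P366.omega n) * |sphI (fun x => ∑ i, W2 f x * Y f i x / 2 *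
        (x i / ‖x‖) - 1 / 2 * ∑ i, W i x * (x i / ‖x‖)) R|
      ≤ R ^ (n - 1) / (((n : ℝ) - 1) * P366.omega n) *
        ((n * (C * R ^ (-((n : ℝ) - 1) - e)) / 2) * P366.omega n) :=
        mul_le_mul_of_nonneg_left hb (by positivity)
    _ = C * n / (2 * ((n : ℝ) - 1)) * (R ^ (n - 1) * R ^ (-((n : ℝ) - 1) - e)) := by
        field_simp
    _ = C * n / (2 * ((n : ℝ) - 1)) * R ^ (-e) := by
        congr 1
        rw [← Real.rpow_natCast R (n - 1), ← Real.rpow_add hRpos]
        congr 1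
        rw [Nat.cast_sub (by omega)]
        push_cast
        ring

/-- The energy is at least half the sum of the powers of the radii. -/
theorem Data.energy_ge (hn : 3 ≤ n) (hAF : D.IsAF) (hu : BigO (((n : ℝ) - 2) / 4) u) {m : ℝ}
    (hm : D.IsEnergy m) (hDEC : D.DEC) (hTr : D.Trapped) : (∑ a, r a ^ (n - 2)) / 2 ≤ m := by
  have hlim := h.energy_lim hn hAF hu hm
  obtain ⟨R0, hR0, hR0a, hfar⟩ := h.far
  have hne : Nonempty (Fin n) := ⟨⟨0, by omega⟩⟩
  have hnt : Nontrivial (E n) := inferInstance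
  have hω : 0 < P366.omega n := Vale.Agent.P366.omega_pos'
  have hn1 : (0 : ℝ) < n - 1 := by
    have : (3 : ℝ) ≤ n := by exact_mod_cast hn
    linarith
  refine ge_of_tendsto hlim ?_
  filter_upwards [eventually_gt_atTop R0] with R hR
  set W : Fin n → E n → ℝ := fun i y => (1 + u y ^ 2) * Y f i y with hWd
  have hW : ∀ i, Smooth (W i) := fun i =>
    ContDiff.mul (contDiff_const.add (ContDiff.pow h.hu 2)) (smooth_Y h.hf i)
  have h1 := flux_mono h.hr h.hd hW (fun x hx => h.div_nonneg hDEC hx)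
    (fun a => (hR0a a).trans hR.le) (hR0.trans hR)
  have h2 : ∀ a, (n - 1) * P366.omega n * r a ^ (n - 2) ≤ flux (fun i y => W i (c a + y)) (r a) := by
    intro a
    have hra := h.hr a
    unfold flux
    have h3 : ((n : ℝ) - 1) / r a * P366.omega n ≤
        sphI (fun x => ∑ i, W i (c a + x) * (x i / ‖x‖)) (r a) := by
      rw [← Vale.Agent.P366.sphI_const (n := n) (R := r a)]
      unfold sphI
      refine integral_mono (integrable_const _) ?_ fun θ => ?_
      · refine Vale.Agent.P366.integrable_sph (b := 0) le_rfl hra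
          (h := fun x => ∑ i, W i (c a + x) * (x i / ‖x‖)) ?_
        refine continuousOn_finsetSum _ fun i _ => ?_
        refine ContinuousOn.mul ?_
          (Vale.Agent.P366.contDiffOn_coord_div (m := 0) le_rfl i).continuousOn
        exact ((ContDiff.continuous (hW i)).comp (continuous_const.add continuous_id)).continuousOn
      · have hx : ‖r a • (θ : E n)‖ = r a := norm_smul_sph hra.le θ
        have h4 := h.flux_ge (by omega) hTr (a := a) (x := c a + r a • (θ : E n))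
          (by rw [add_sub_cancel_left, hx])
        simp only [add_sub_cancel_left] at h4
        simp only [hx]
        exact h4
    calc (n - 1) * P366.omega n * r a ^ (n - 2)
        = r a ^ (n - 1) * (((n : ℝ) - 1) / r a * P366.omega n) := by
          have : n - 1 = n - 2 + 1 := by omega
          rw [this, pow_succ]
          field_simp
      _ ≤ _ := mul_le_mul_of_nonneg_left h3 (by positivity)
  have h3 : (n - 1) * P366.omega n * ∑ a, r a ^ (n - 2) ≤ flux W R := by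
    rw [Finset.mul_sum]
    exact (Finset.sum_le_sum fun a _ => h2 a).trans h1
  rw [le_div_iff₀ (by positivity)]
  linarith

end

end Vale.Agent.H247E
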