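import Vale.Agent.P366.H247.Curv

/-! P366, class E1: the energy and momentum densities. -/

set_option linter.all false

open MeasureTheory Metric Filter Topology Set
open scoped ContDiff ENNReal

noncomputable section
namespace Vale.Agent.H247E
open Vale.Agent.P366.Stmt Vale.Agent.P366.T2

variable {n : ℕ}

/-- the factor of the Hessian in `K` -/
def sg (f u : E n → ℝ) (x : E n) : ℝ := u x / √(W2 f x)
/-- the trace of `K` -/
def tau (f u : E n → ℝ) (x : E n) : ℝ := sg f u x * (L f x - s f x / W2 f x)

lemma sqrtW_pos (f : E n → ℝ) (x : E n) : 0 < √(W2 f x) := Real.sqrt_pos.2 (W2_pos f x)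

lemma sqrtW_sq (f : E n → ℝ) (x : E n) : √(W2 f x) ^ 2 = W2 f x := Real.sq_sqrt (W2_pos f x).le

lemma KF_eq (f u : E n → ℝ) (x : E n) (i j : Fin n) : KF f u x i j = sg f u x * H f i j x := by
  unfold KF sg; ring

section

variable {f u : E n → ℝ}

lemma tr_KF (x : E n) : tr (gF f) (KF f u) x = tau f u x := by
  unfold tr
  rw [up_dbl]
  simp only [KF_eq]
  have e : ∀ i, ∑ j, pd j f x * (sg f u x * H f i j x) = sg f u x * h f i x := by
    intro i
    rw [← sum_pd_H, Finset.mul_sum]
    exact Finset.sum_congr rfl fun j _ => by ring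
  have e2 : ∑ i, pd i f x * (sg f u x * h f i x) = sg f u x * s f x := by
    rw [← sum_pd_h, Finset.mul_sum]
    exact Finset.sum_congr rfl fun j _ => by ring
  simp only [e, e2, ← Finset.mul_sum]
  have e4 : ∑ k, H f k k x = L f x := rfl
  rw [e4]
  unfold tau
  ring

variable (hf : Smooth f)
include hf

lemma normSq_KF (x : E n) : normSq (gF f) (KF f u) x =
    sg f u x ^ 2 * (q2 f x - 2 * h2 f x / W2 f x + s f x ^ 2 / W2 f x ^ 2) := by
  have hW := W2_ne f x
  unfold normSq
  have e1 : ∀ j k, ∑ l, up (gF f) j l x * H f k l x = H f k j x - pd j f x * h f k x / W2 f x := by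
    intro j k
    rw [up_mul, sum_pd_H]
  have e2 : ∀ i j, ∑ k, up (gF f) i k x * (H f k j x - pd j f x * h f k x / W2 f x) =
      H f i j x - pd j f x * h f i x / W2 f x - pd i f x * h f j x / W2 f x +
        pd i f x * pd j f x * s f x / W2 f x ^ 2 := by
    intro i j
    rw [up_mul]
    have e : ∑ k, pd k f x * (H f k j x - pd j f x * h f k x / W2 f x) =
        h f j x - pd j f x * s f x / W2 f x := by
      have e' : ∀ k, pd k f x * (H f k j x - pd j f x * h f k x / W2 f x) =
          pd k f x * H f k j x - pd j f x / W2 f x * (pd k f x * h f k x) := fun k => by ring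
      simp only [e', Finset.sum_sub_distrib, ← Finset.mul_sum, sum_pd_H' hf, sum_pd_h]
      ring
    rw [e]
    field_simp
    ring
  have e3 : ∀ i j, ∑ k, ∑ l, up (gF f) i k x * up (gF f) j l x * KF f u x i j * KF f u x k l =
      sg f u x ^ 2 * (H f i j x * H f i j x) - sg f u x ^ 2 / W2 f x * (h f i x *
        (pd j f x * H f i j x)) - sg f u x ^ 2 / W2 f x * (pd i f x * (h f j x * H f i j x)) +
        sg f u x ^ 2 * s f x / W2 f x ^ 2 * (pd i f x * (pd j f x * H f i j x)) := by
    intro i j
    have e4 : ∀ k, ∑ l, up (gF f) i k x * up (gF f) j l x * KF f u x i j * KF f u x k l =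
        sg f u x ^ 2 * H f i j x * (up (gF f) i k x * ∑ l, up (gF f) j l x * H f k l x) := by
      intro k
      rw [Finset.mul_sum, Finset.mul_sum]
      refine Finset.sum_congr rfl fun l _ => ?_
      rw [KF_eq, KF_eq]
      ring
    simp only [e4, e1, ← Finset.mul_sum, e2]
    field_simp
  simp only [e3, Finset.sum_add_distrib, Finset.sum_sub_distrib, ← Finset.mul_sum, sum_pd_H]
  have e5 : ∑ i, pd i f x * ∑ j, h f j x * H f i j x = h2 f x := by
    have : ∀ i, pd i f x * ∑ j, h f j x * H f i j x = ∑ j, h f j x * (pd i f x * H f i j x) := by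
      intro i
      rw [Finset.mul_sum]
      exact Finset.sum_congr rfl fun j _ => by ring
    simp only [this]
    rw [Finset.sum_comm]
    simp only [← Finset.mul_sum, sum_pd_H' hf]
    rfl
  have e6 : ∑ i, h f i x * h f i x = h2 f x := rfl
  have e7 : ∑ i, ∑ k, H f i k x * H f i k x = q2 f x := rfl
  rw [e5, e6, e7, sum_pd_h]
  field_simp
  ring

/-- The energy density. -/
lemma mu_KF (x : E n) : mu (gF f) (KF f u) x = (1 + u x ^ 2) * scal (gF f) x / 2 := by
  have hW := W2_ne f x
  unfold mu
  rw [tr_KF, normSq_KF hf, scal_gF hf]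
  have e : sg f u x ^ 2 = u x ^ 2 / W2 f x := by
    unfold sg
    rw [div_pow, sqrtW_sq]
  have e2 : tau f u x ^ 2 = sg f u x ^ 2 * (L f x - s f x / W2 f x) ^ 2 := by
    unfold tau; ring
  rw [e2, e]
  field_simp
  ring

variable (hu : Smooth u)
include hu

lemma smooth_sg : Smooth (sg f u) := by
  unfold sg Smooth
  exact ContDiff.div hu (smooth_sqrtW hf) (fun x => (sqrtW_pos f x).ne')

lemma smooth_tau : Smooth (tau f u) := by
  unfold tau Smooth
  exact ContDiff.mul (smooth_sg hf hu) (ContDiff.sub (smooth_L hf)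
    (ContDiff.div (smooth_s hf) (smooth_W2 hf) (fun x => W2_ne f x)))

lemma pd_sg (k : Fin n) (x : E n) :
    pd k (sg f u) x = (pd k u x - u x * h f k x / W2 f x) / √(W2 f x) := by
  have h1 := HP.div (HP.sm hu k x) (HP.sqrt (HP_W2 hf k x) (W2_ne f x)) (sqrtW_pos f x).ne'
  have h2 : pd k (sg f u) x = _ := h1.pd
  rw [h2]
  have h3 := sqrtW_pos f x
  have h4 := sqrtW_sq f x
  have h5 := W2_ne f x
  rw [h4]
  field_simp
  rw [h4]

lemma pd_tau (k : Fin n) (x : E n) :
    pd k (tau f u) x = pd k (sg f u) x * (L f x - s f x / W2 f x) +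
      sg f u x * (∑ m, T3 f k m m x - ((∑ i, ((∑ m, (T3 f k i m x * pd m f x +
        H f i m x * H f k m x)) * pd i f x + h f i x * H f k i x)) * W2 f x -
        s f x * (2 * h f k x)) / W2 f x ^ 2) := by
  have h0 : HP k (s f) (∑ i, ((∑ m, (T3 f k i m x * pd m f x +
        H f i m x * H f k m x)) * pd i f x + h f i x * H f k i x)) x :=
    HP.sum (k := k) (x := x) Finset.univ (fun i _ => (HP_h hf k i x).mul (HP_pd hf k i x))
  have h1 := (HP.sm (smooth_sg hf hu) k x).mul ((HP_L hf k x).sub
    (HP.div h0 (HP_W2 hf k x) (W2_ne f x)))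
  exact h1.pd

lemma pd_momT (k i j : Fin n) (x : E n) :
    pd k (fun y => momT (gF f) (KF f u) y i j) x =
      pd k (sg f u) x * H f i j x + sg f u x * T3 f k i j x -
      (pd k (tau f u) x * gF f x i j + tau f u x * (H f k i x * pd j f x + pd i f x * H f k j x)) := by
  have h1 := ((HP.sm (smooth_sg hf hu) k x).mul (HP_H hf k i j x)).sub
    ((HP.sm (smooth_tau hf hu) k x).mul (HP_gF hf k i j x))
  have h2 := h1.congr (g := fun y => momT (gF f) (KF f u) y i j) (Eventually.of_forall fun y => by
    show momT (gF f) (KF f u) y i j = sg f u y * H f i j y - tau f u y * gF f y i j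
    unfold momT
    rw [tr_KF, KF_eq])
  exact h2.pd

lemma cov_momT (k i j : Fin n) (x : E n) :
    pd k (fun y => momT (gF f) (KF f u) y i j) x -
      ∑ l, (chr (gF f) l k i x * momT (gF f) (KF f u) x l j +
        chr (gF f) l k j x * momT (gF f) (KF f u) x i l) =
      pd k (sg f u) x * H f i j x + sg f u x * T3 f k i j x - pd k (tau f u) x * gF f x i j -
        sg f u x * H f k i x * h f j x / W2 f x - sg f u x * H f k j x * h f i x / W2 f x := by
  have hW := W2_ne f x
  rw [pd_momT hf hu]
  have e : ∀ l, chr (gF f) l k i x * momT (gF f) (KF f u) x l j +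
        chr (gF f) l k j x * momT (gF f) (KF f u) x i l =
      sg f u x * H f k i x / W2 f x * (pd l f x * H f l j x) +
      sg f u x * H f k j x / W2 f x * (pd l f x * H f i l x) -
      tau f u x * H f k i x / W2 f x * (pd l f x * (if l = j then 1 else 0)) -
      tau f u x * H f k j x / W2 f x * (pd l f x * (if i = l then 1 else 0)) -
      tau f u x * (H f k i x * pd j f x + H f k j x * pd i f x) / W2 f x *
        (pd l f x * pd l f x) := by
    intro l
    simp only [chr_gF hf]
    unfold momT
    rw [tr_KF, KF_eq, KF_eq]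
    unfold gF
    ring
  simp only [e, Finset.sum_add_distrib, Finset.sum_sub_distrib, ← Finset.mul_sum, sum_pd_sq,
    sum_pd_H, sum_pd_H' hf, mul_ite, mul_one, mul_zero, Finset.sum_ite_eq, Finset.sum_ite_eq',
    Finset.mem_univ, if_true]
  field_simp
  ring

/-- the contracted third derivatives -/
def TT (f : E n → ℝ) (x : E n) : ℝ := ∑ i, ∑ j, pd j f x * T3 f i i j x
/-- the third derivative on the gradient -/
def Tp (f : E n → ℝ) (x : E n) : ℝ := ∑ i, pd i f x * ∑ k, pd k f x * ∑ j, pd j f x * T3 f k i j x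

lemma pd_tau_p (x : E n) : ∑ k, pd k f x * pd k (tau f u) x =
    (∑ k, pd k f x * pd k (sg f u) x) * (L f x - s f x / W2 f x) +
      sg f u x * (TT f x - Tp f x / W2 f x - 2 * h2 f x / W2 f x +
        2 * s f x ^ 2 / W2 f x ^ 2) := by
  have hW := W2_ne f x
  have e1 : ∀ k, ∑ i, ((∑ m, (T3 f k i m x * pd m f x +
        H f i m x * H f k m x)) * pd i f x + h f i x * H f k i x) =
      ∑ i, pd i f x * ∑ m, pd m f x * T3 f k i m x + 2 * ∑ m, h f m x * H f k m x := by
    intro k
    have e2 : ∀ i, ((∑ m, (T3 f k i m x * pd m f x +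
        H f i m x * H f k m x)) * pd i f x + h f i x * H f k i x) =
        pd i f x * (∑ m, pd m f x * T3 f k i m x) + (∑ m, H f k m x * (pd i f x * H f i m x)) +
        h f i x * H f k i x := by
      intro i
      have e3 : ∑ m, (T3 f k i m x * pd m f x + H f i m x * H f k m x) =
          ∑ m, pd m f x * T3 f k i m x + ∑ m, H f i m x * H f k m x := by
        rw [← Finset.sum_add_distrib]
        exact Finset.sum_congr rfl fun m _ => by ring
      have e4 : ∑ m, H f k m x * (pd i f x * H f i m x) =
          pd i f x * ∑ m, H f i m x * H f k m x := by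
        rw [Finset.mul_sum]
        exact Finset.sum_congr rfl fun m _ => by ring
      rw [e3, e4]
      ring
    rw [Finset.sum_congr rfl fun i _ => e2 i]
    rw [Finset.sum_add_distrib, Finset.sum_add_distrib]
    rw [Finset.sum_comm (f := fun i m => H f k m x * (pd i f x * H f i m x))]
    simp only [← Finset.mul_sum, sum_pd_H' hf]
    have e5 : ∑ m, H f k m x * h f m x = ∑ m, h f m x * H f k m x :=
      Finset.sum_congr rfl fun m _ => by ring
    rw [e5]
    ring
  have e6 : ∀ k, pd k f x * pd k (tau f u) x =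
      (L f x - s f x / W2 f x) * (pd k f x * pd k (sg f u) x) +
      sg f u x * (∑ m, pd k f x * T3 f k m m x) -
      sg f u x / W2 f x * (pd k f x * ∑ i, pd i f x * ∑ m, pd m f x * T3 f k i m x) -
      2 * sg f u x / W2 f x * (∑ m, h f m x * (pd k f x * H f k m x)) +
      2 * sg f u x * s f x / W2 f x ^ 2 * (pd k f x * h f k x) := by
    intro k
    rw [pd_tau hf hu, e1, ← Finset.mul_sum]
    have e7 : ∑ m, h f m x * (pd k f x * H f k m x) = pd k f x * ∑ m, h f m x * H f k m x := by
      rw [Finset.mul_sum]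
      exact Finset.sum_congr rfl fun m _ => by ring
    rw [e7]
    field_simp
    ring
  rw [Finset.sum_congr rfl fun k _ => e6 k]
  rw [Finset.sum_add_distrib, Finset.sum_sub_distrib, Finset.sum_sub_distrib,
    Finset.sum_add_distrib]
  simp only [← Finset.mul_sum]
  rw [Finset.sum_comm (f := fun k m => h f m x * (pd k f x * H f k m x))]
  simp only [← Finset.mul_sum, sum_pd_H' hf, sum_pd_h]
  have e8 : ∑ k, pd k f x * ∑ m, T3 f k m m x = TT f x := by
    unfold TT
    rw [Finset.sum_comm]
    refine Finset.sum_congr rfl fun k _ => ?_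
    rw [Finset.mul_sum]
    refine Finset.sum_congr rfl fun m _ => ?_
    rw [T3_symm2 hf m m k, T3_symm1 hf m k m]
  have e9 : ∑ k, pd k f x * ∑ i, pd i f x * ∑ m, pd m f x * T3 f k i m x = Tp f x := by
    unfold Tp
    refine Finset.sum_congr rfl fun k _ => ?_
    congr 1
    refine Finset.sum_congr rfl fun i _ => ?_
    congr 1
    exact Finset.sum_congr rfl fun m _ => by rw [T3_symm1 hf k i m]
  have e10 : ∑ i, h f i x * h f i x = h2 f x := rfl
  rw [e8, e9, e10]
  field_simp
  ring

/-- The momentum density on the gradient. -/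
lemma mom_p (x : E n) : ∑ j, pd j f x * mom (gF f) (KF f u) j x =
    ∑ i, pd i (sg f u) x * h f i x - L f x * ∑ i, pd i f x * pd i (sg f u) x +
      sg f u x * (h2 f x - L f x * s f x) / W2 f x := by
  have hW := W2_ne f x
  unfold mom
  simp only [cov_momT hf hu]
  have e1 : ∑ j, pd j f x * ∑ i, ∑ k, up (gF f) i k x * (pd k (sg f u) x * H f i j x +
      sg f u x * T3 f k i j x - pd k (tau f u) x * gF f x i j -
        sg f u x * H f k i x * h f j x / W2 f x - sg f u x * H f k j x * h f i x / W2 f x) =
      ∑ i, ∑ k, up (gF f) i k x * (pd k (sg f u) x * h f i x +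
        sg f u x * (∑ j, pd j f x * T3 f k i j x) - W2 f x * pd k (tau f u) x * pd i f x -
        sg f u x * H f k i x * s f x / W2 f x - sg f u x * h f k x * h f i x / W2 f x) := by
    simp only [Finset.mul_sum]
    rw [Finset.sum_comm]
    refine Finset.sum_congr rfl fun i _ => ?_
    rw [Finset.sum_comm]
    refine Finset.sum_congr rfl fun k _ => ?_
    have e2 : ∀ j, pd j f x * (up (gF f) i k x * (pd k (sg f u) x * H f i j x +
      sg f u x * T3 f k i j x - pd k (tau f u) x * gF f x i j -
        sg f u x * H f k i x * h f j x / W2 f x - sg f u x * H f k j x * h f i x / W2 f x)) =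
        up (gF f) i k x * pd k (sg f u) x * (pd j f x * H f i j x) +
        up (gF f) i k x * sg f u x * (pd j f x * T3 f k i j x) -
        up (gF f) i k x * pd k (tau f u) x * (pd j f x * (if i = j then 1 else 0)) -
        up (gF f) i k x * pd k (tau f u) x * pd i f x * (pd j f x * pd j f x) -
        up (gF f) i k x * sg f u x * H f k i x / W2 f x * (pd j f x * h f j x) -
        up (gF f) i k x * sg f u x * h f i x / W2 f x * (pd j f x * H f k j x) := by
      intro j
      unfold gF
      field_simp
      ring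
    rw [Finset.sum_congr rfl fun j _ => e2 j]
    simp only [Finset.sum_add_distrib, Finset.sum_sub_distrib, ← Finset.mul_sum, sum_pd_sq,
      sum_pd_H, sum_pd_H' hf, sum_pd_h, mul_ite, mul_one, mul_zero, Finset.sum_ite_eq,
      Finset.sum_ite_eq', Finset.mem_univ, if_true]
    field_simp
    ring
  rw [e1, up_dbl]
  have e3 : ∑ i, (pd i (sg f u) x * h f i x +
        sg f u x * (∑ j, pd j f x * T3 f i i j x) - W2 f x * pd i (tau f u) x * pd i f x -
        sg f u x * H f i i x * s f x / W2 f x - sg f u x * h f i x * h f i x / W2 f x) =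
      ∑ i, pd i (sg f u) x * h f i x + sg f u x * TT f x -
        W2 f x * (∑ k, pd k f x * pd k (tau f u) x) - sg f u x * L f x * s f x / W2 f x -
        sg f u x * h2 f x / W2 f x := by
    have e4 : ∀ i, (pd i (sg f u) x * h f i x +
        sg f u x * (∑ j, pd j f x * T3 f i i j x) - W2 f x * pd i (tau f u) x * pd i f x -
        sg f u x * H f i i x * s f x / W2 f x - sg f u x * h f i x * h f i x / W2 f x) =
        pd i (sg f u) x * h f i x + sg f u x * (∑ j, pd j f x * T3 f i i j x) -
        W2 f x * (pd i f x * pd i (tau f u) x) - sg f u x * s f x / W2 f x * H f i i x -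
        sg f u x / W2 f x * (h f i x * h f i x) := fun i => by ring
    rw [Finset.sum_congr rfl fun i _ => e4 i]
    rw [Finset.sum_sub_distrib, Finset.sum_sub_distrib, Finset.sum_sub_distrib,
      Finset.sum_add_distrib]
    simp only [← Finset.mul_sum]
    have e5 : ∑ k, H f k k x = L f x := rfl
    have e6 : ∑ i, h f i x * h f i x = h2 f x := rfl
    have e7 : ∑ i, ∑ j, pd j f x * T3 f i i j x = TT f x := rfl
    rw [e5, e6, e7]
    ring
  have e8 : ∀ i, ∑ k, pd k f x * (pd k (sg f u) x * h f i x +
        sg f u x * (∑ j, pd j f x * T3 f k i j x) - W2 f x * pd k (tau f u) x * pd i f x -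
        sg f u x * H f k i x * s f x / W2 f x - sg f u x * h f k x * h f i x / W2 f x) =
      (∑ k, pd k f x * pd k (sg f u) x) * h f i x +
        sg f u x * (∑ k, pd k f x * ∑ j, pd j f x * T3 f k i j x) -
        W2 f x * (∑ k, pd k f x * pd k (tau f u) x) * pd i f x -
        2 * sg f u x * s f x / W2 f x * h f i x := by
    intro i
    have e4 : ∀ k, pd k f x * (pd k (sg f u) x * h f i x +
        sg f u x * (∑ j, pd j f x * T3 f k i j x) - W2 f x * pd k (tau f u) x * pd i f x -
        sg f u x * H f k i x * s f x / W2 f x - sg f u x * h f k x * h f i x / W2 f x) =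
        h f i x * (pd k f x * pd k (sg f u) x) +
        sg f u x * (pd k f x * ∑ j, pd j f x * T3 f k i j x) -
        W2 f x * pd i f x * (pd k f x * pd k (tau f u) x) -
        sg f u x * s f x / W2 f x * (pd k f x * H f k i x) -
        sg f u x * h f i x / W2 f x * (pd k f x * h f k x) := fun k => by ring
    rw [Finset.sum_congr rfl fun i _ => e4 i]
    rw [Finset.sum_sub_distrib, Finset.sum_sub_distrib, Finset.sum_sub_distrib,
      Finset.sum_add_distrib]
    simp only [← Finset.mul_sum, sum_pd_H' hf, sum_pd_h]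
    field_simp
    ring
  have e9 : ∑ i, pd i f x * ((∑ k, pd k f x * pd k (sg f u) x) * h f i x +
        sg f u x * (∑ k, pd k f x * ∑ j, pd j f x * T3 f k i j x) -
        W2 f x * (∑ k, pd k f x * pd k (tau f u) x) * pd i f x -
        2 * sg f u x * s f x / W2 f x * h f i x) =
      (∑ k, pd k f x * pd k (sg f u) x) * s f x + sg f u x * Tp f x -
        W2 f x * (∑ k, pd k f x * pd k (tau f u) x) * (W2 f x - 1) -
        2 * sg f u x * s f x ^ 2 / W2 f x := by
    have e4 : ∀ i, pd i f x * ((∑ k, pd k f x * pd k (sg f u) x) * h f i x +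
        sg f u x * (∑ k, pd k f x * ∑ j, pd j f x * T3 f k i j x) -
        W2 f x * (∑ k, pd k f x * pd k (tau f u) x) * pd i f x -
        2 * sg f u x * s f x / W2 f x * h f i x) =
        (∑ k, pd k f x * pd k (sg f u) x) * (pd i f x * h f i x) +
        sg f u x * (pd i f x * ∑ k, pd k f x * ∑ j, pd j f x * T3 f k i j x) -
        W2 f x * (∑ k, pd k f x * pd k (tau f u) x) * (pd i f x * pd i f x) -
        2 * sg f u x * s f x / W2 f x * (pd i f x * h f i x) := fun i => by ring
    rw [Finset.sum_congr rfl fun i _ => e4 i]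
    rw [Finset.sum_sub_distrib, Finset.sum_sub_distrib, Finset.sum_add_distrib]
    simp only [← Finset.mul_sum, sum_pd_h, sum_pd_sq]
    have e7 : ∑ i, pd i f x * ∑ k, pd k f x * ∑ j, pd j f x * T3 f k i j x = Tp f x := rfl
    rw [e7]
    ring
  rw [e3]
  simp only [e8]
  rw [e9, pd_tau_p hf hu]
  field_simp
  ring

/-- The momentum density on the gradient is the derivative of `u` along `-Y`. -/
lemma mom_Y (x : E n) : ∑ j, pd j f x * mom (gF f) (KF f u) j x =
    -(√(W2 f x) * ∑ i, pd i u x * Y f i x) := by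
  have hW := W2_ne f x
  have hp := sqrtW_pos f x
  have hs := sqrtW_sq f x
  rw [mom_p hf hu]
  have e1 : ∑ i, pd i (sg f u) x * h f i x =
      (∑ i, pd i u x * h f i x - u x * h2 f x / W2 f x) / √(W2 f x) := by
    have e : ∀ i, pd i (sg f u) x * h f i x = 1 / √(W2 f x) * (pd i u x * h f i x) -
        u x / W2 f x / √(W2 f x) * (h f i x * h f i x) := by
      intro i
      rw [pd_sg hf hu]
      ring
    simp only [e, Finset.sum_sub_distrib, ← Finset.mul_sum]
    have e6 : ∑ i, h f i x * h f i x = h2 f x := rfl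
    rw [e6]
    ring
  have e2 : ∑ i, pd i f x * pd i (sg f u) x =
      (∑ i, pd i u x * pd i f x - u x * s f x / W2 f x) / √(W2 f x) := by
    have e : ∀ i, pd i f x * pd i (sg f u) x = 1 / √(W2 f x) * (pd i u x * pd i f x) -
        u x / W2 f x / √(W2 f x) * (pd i f x * h f i x) := by
      intro i
      rw [pd_sg hf hu]
      ring
    simp only [e, Finset.sum_sub_distrib, ← Finset.mul_sum, sum_pd_h]
    ring
  have e3 : ∑ i, pd i u x * Y f i x =
      (L f x * (∑ i, pd i u x * pd i f x) - ∑ i, pd i u x * h f i x) / W2 f x := by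
    have e : ∀ i, pd i u x * Y f i x = L f x / W2 f x * (pd i u x * pd i f x) -
        1 / W2 f x * (pd i u x * h f i x) := by
      intro i
      unfold Y
      ring
    simp only [e, Finset.sum_sub_distrib, ← Finset.mul_sum]
    ring
  rw [e1, e2, e3]
  unfold sg
  have e4 : √(W2 f x) * ((L f x * (∑ i, pd i u x * pd i f x) - ∑ i, pd i u x * h f i x) / W2 f x)
      = (L f x * (∑ i, pd i u x * pd i f x) - ∑ i, pd i u x * h f i x) / √(W2 f x) := by
    rw [← mul_div_assoc, div_eq_div_iff hW hp.ne']
    linear_combination (L f x * (∑ i, pd i u x * pd i f x) - ∑ i, pd i u x * h f i x) * hs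
  rw [e4]
  field_simp
  ring

end

end Vale.Agent.H247E
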