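import Vale.Agent.P366.H247.Form

/-! P366, class E1: functions constant on a sphere. -/

set_option linter.all false

open MeasureTheory Metric Filter Topology Set
open scoped ContDiff ENNReal RealInnerProductSpace

noncomputable section
namespace Vale.Agent.H247E
open Vale.Agent.P366.Stmt Vale.Agent.P366.T2

variable {n : ℕ}

lemma chain {ψ : E n → ℝ} (hψ : Smooth ψ) {γ : ℝ → E n} {v : E n} {t : ℝ}
    (hγ : HasDerivAt γ v t) :
    HasDerivAt (fun t => ψ (γ t)) (∑ j, v j * pd j ψ (γ t)) t := by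
  have h1 := (Smooth.diff hψ (γ t)).hasFDerivAt.comp_hasDerivAt t hγ
  have h2 : fderiv ℝ ψ (γ t) v = ∑ j, v j * pd j ψ (γ t) := by
    rw [Vale.Agent.P366.fderiv_eq_sum_pd]
    refine Finset.sum_congr rfl fun j _ => ?_
    rw [Vale.Agent.P366.pd_eq_of_smooth hψ]
  rw [← h2]
  exact h1

/-- the circle in the plane of `y` and `v` -/
def gam (c y v : E n) (t : ℝ) : E n := c + (Real.cos t • y + Real.sin t • v)

lemma gam_deriv (c y v : E n) (t : ℝ) :
    HasDerivAt (gam c y v) ((-Real.sin t) • y + Real.cos t • v) t := by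
  unfold gam
  exact (((Real.hasDerivAt_cos t).smul_const y).add ((Real.hasDerivAt_sin t).smul_const v)).const_add c

lemma gam_norm {c y v : E n} {r : ℝ} (hr : 0 < r) (hy : ‖y‖ = r) (hv : ‖v‖ = r)
    (hyv : ⟪y, v⟫ = 0) (t : ℝ) : ‖gam c y v t - c‖ = r := by
  have h1 : gam c y v t - c = Real.cos t • y + Real.sin t • v := by unfold gam; abel
  have h2 : ‖Real.cos t • y + Real.sin t • v‖ ^ 2 = r ^ 2 := by
    rw [norm_add_sq_real, norm_smul, norm_smul, inner_smul_left, inner_smul_right, hyv, hy, hv]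
    simp only [Real.norm_eq_abs, mul_pow, sq_abs, mul_zero, add_zero]
    linear_combination r ^ 2 * Real.cos_sq_add_sin_sq t
  rw [h1]
  exact (pow_left_inj₀ (norm_nonneg _) hr.le (by norm_num)).1 h2

lemma circ {φ : E n → ℝ} (hφ : Smooth φ) {c x0 v : E n} {r C : ℝ} (hr : 0 < r)
    (hx : ‖x0 - c‖ = r) (hC : ∀ x, ‖x - c‖ = r → φ x = C) (hv : ‖v‖ = r)
    (hyv : ⟪x0 - c, v⟫ = 0) :
    ∑ j, v j * pd j φ x0 = 0 ∧
      ∑ j, v j * ∑ i, v i * H φ i j x0 = ∑ j, (x0 - c) j * pd j φ x0 := by
  set y := x0 - c with hy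
  have h0 : gam c y v 0 = x0 := by
    unfold gam
    simp [hy]
  have h1 : ∀ t, ∑ j, ((-Real.sin t) • y + Real.cos t • v) j * pd j φ (gam c y v t) = 0 := by
    intro t
    have h2 := chain hφ (gam_deriv c y v t)
    have h3 : (fun t => φ (gam c y v t)) = fun _ => C :=
      funext fun t => hC _ (gam_norm hr hx hv hyv t)
    rw [h3] at h2
    exact h2.unique (hasDerivAt_const t C)
  have e0 : ∀ (t : ℝ) (j : Fin n), ((-Real.sin t) • y + Real.cos t • v) j =
      -Real.sin t * y j + Real.cos t * v j := by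
    intro t j
    simp
  constructor
  · have h2 := h1 0
    rw [h0] at h2
    simp only [Real.sin_zero, Real.cos_zero, neg_zero, zero_smul, zero_add, one_smul] at h2
    exact h2
  · have h2 : HasDerivAt (fun t => ∑ j, (-Real.sin t * y j + Real.cos t * v j) *
        pd j φ (gam c y v t)) (∑ j, ((-Real.cos 0 * y j + -Real.sin 0 * v j) *
          pd j φ (gam c y v 0) + (-Real.sin 0 * y j + Real.cos 0 * v j) *
          ∑ i, ((-Real.sin 0) • y + Real.cos 0 • v) i * pd i (pd j φ) (gam c y v 0))) 0 := by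
      refine HasDerivAt.fun_sum fun j _ => ?_
      refine HasDerivAt.mul ?_ (chain (smooth_pd' hφ j) (gam_deriv c y v 0))
      exact (((Real.hasDerivAt_sin 0).neg).mul_const (y j)).add
        ((Real.hasDerivAt_cos 0).mul_const (v j))
    have h3 : (fun t => ∑ j, (-Real.sin t * y j + Real.cos t * v j) * pd j φ (gam c y v t)) =
        fun _ => 0 := by
      funext t
      have := h1 t
      simp only [e0] at this
      exact this
    rw [h3] at h2
    have h4 := h2.unique (hasDerivAt_const 0 0)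
    rw [h0] at h4
    simp only [Real.sin_zero, Real.cos_zero, neg_zero, zero_mul, zero_add, one_mul, add_zero,
      neg_mul, zero_smul, one_smul, Finset.sum_add_distrib, Finset.sum_neg_distrib] at h4
    have h5 : ∑ j, v j * ∑ i, v i * H φ i j x0 = ∑ j, v j * ∑ i, v i * pd i (pd j φ) x0 := rfl
    rw [h5]
    linarith

/-- The Hessian on tangent vectors. -/
lemma quad {φ : E n → ℝ} (hφ : Smooth φ) {c x0 v : E n} {r C : ℝ} (hr : 0 < r)
    (hx : ‖x0 - c‖ = r) (hC : ∀ x, ‖x - c‖ = r → φ x = C) (hyv : ⟪x0 - c, v⟫ = 0) :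
    ∑ j, v j * pd j φ x0 = 0 ∧
      ∑ j, v j * ∑ i, v i * H φ i j x0 = ‖v‖ ^ 2 / r ^ 2 * ∑ j, (x0 - c) j * pd j φ x0 := by
  rcases eq_or_ne v 0 with rfl | hv
  · simp
  have hv0 : 0 < ‖v‖ := norm_pos_iff.2 hv
  set l := r / ‖v‖ with hl
  have hl0 : 0 < l := div_pos hr hv0
  have h1 : ‖l • v‖ = r := by
    rw [norm_smul, Real.norm_eq_abs, abs_of_pos hl0, hl]
    field_simp
  have h2 : ⟪x0 - c, l • v⟫ = 0 := by rw [inner_smul_right, hyv, mul_zero]
  obtain ⟨h3, h4⟩ := circ hφ hr hx hC h1 h2
  constructor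
  · have e : ∑ j, (l • v) j * pd j φ x0 = l * ∑ j, v j * pd j φ x0 := by
      rw [Finset.mul_sum]
      refine Finset.sum_congr rfl fun j _ => ?_
      simp only [PiLp.smul_apply, smul_eq_mul]; ring
    rw [e] at h3
    exact (mul_eq_zero.1 h3).resolve_left hl0.ne'
  · have e : ∑ j, (l • v) j * ∑ i, (l • v) i * H φ i j x0 =
        l ^ 2 * ∑ j, v j * ∑ i, v i * H φ i j x0 := by
      rw [Finset.mul_sum]
      refine Finset.sum_congr rfl fun j _ => ?_
      have e' : ∑ i, (l • v) i * H φ i j x0 = l * ∑ i, v i * H φ i j x0 := by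
        rw [Finset.mul_sum]
        refine Finset.sum_congr rfl fun i _ => ?_
        simp only [PiLp.smul_apply, smul_eq_mul]; ring
      rw [e']
      simp only [PiLp.smul_apply, smul_eq_mul]; ring
    rw [e] at h4
    rw [← h4, hl]
    field_simp

/-- the data of a function constant on a sphere -/
theorem sphere_const {φ : E n → ℝ} (hφ : Smooth φ) {c x0 : E n} {r C : ℝ} (hr : 0 < r)
    (hx : ‖x0 - c‖ = r) (hC : ∀ x, ‖x - c‖ = r → φ x = C) :
    ∃ a : ℝ, (∀ i, pd i φ x0 = a * ((x0 - c) i / r)) ∧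
      L φ x0 - ∑ i, ∑ j, H φ i j x0 * ((x0 - c) i / r) * ((x0 - c) j / r) = (n - 1) * a / r := by
  set y := x0 - c with hy
  set ν : Fin n → ℝ := fun i => y i / r with hν
  have hνν : ∑ i, ν i * ν i = 1 := by
    have h1 : ∑ i, y i ^ 2 = r ^ 2 := by rw [← hx, EuclideanSpace.real_norm_sq_eq]
    have e : ∀ i, ν i * ν i = y i ^ 2 / r ^ 2 := fun i => by simp only [hν]; ring
    simp only [e]
    rw [← Finset.sum_div, h1]
    field_simp
  set a := ∑ j, ν j * pd j φ x0 with ha
  have hya : ∑ j, y j * pd j φ x0 = r * a := by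
    rw [ha, Finset.mul_sum]
    refine Finset.sum_congr rfl fun j _ => ?_
    simp only [hν]
    field_simp
  have hin : ∀ w : E n, ⟪y, w⟫ = r * ∑ i, ν i * w i := by
    intro w
    rw [PiLp.inner_apply, Finset.mul_sum]
    refine Finset.sum_congr rfl fun i _ => ?_
    simp only [hν, RCLike.inner_apply, conj_trivial]
    field_simp
  refine ⟨a, ?_, ?_⟩
  · -- the gradient is normal
    set w : E n := WithLp.toLp 2 (fun i => pd i φ x0 - a * ν i) with hw
    have hwi : ∀ i, w i = pd i φ x0 - a * ν i := fun i => rfl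
    have h1 : ∑ i, ν i * w i = 0 := by
      have e : ∀ i, ν i * w i = ν i * pd i φ x0 - a * (ν i * ν i) := fun i => by
        rw [hwi]; ring
      simp only [e, Finset.sum_sub_distrib, ← Finset.mul_sum, hνν]
      rw [← ha]; ring
    have h2 : ⟪y, w⟫ = 0 := by rw [hin, h1, mul_zero]
    have h3 := (quad hφ hr hx hC h2).1
    have h4 : ∑ i, w i ^ 2 = 0 := by
      have e : ∀ i, w i ^ 2 = w i * pd i φ x0 - a * (ν i * w i) := fun i => by
        rw [hwi]; ring
      simp only [e, Finset.sum_sub_distrib, ← Finset.mul_sum, h1, h3]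
      ring
    intro i
    have h5 := (Finset.sum_eq_zero_iff_of_nonneg (fun i _ => sq_nonneg (w i))).1 h4 i
      (Finset.mem_univ i)
    have h6 : w i = 0 := pow_eq_zero_iff (by norm_num) |>.1 h5
    rw [hwi] at h6
    linarith
  · -- the tangential trace of the Hessian
    set N := ∑ i, ∑ j, H φ i j x0 * ν i * ν j with hN
    have hk : ∀ k : Fin n, H φ k k x0 - 2 * ν k * (∑ i, ν i * H φ i k x0) + ν k ^ 2 * N =
        (1 - ν k ^ 2) * a / r := by
      intro k
      set w : E n := WithLp.toLp 2 (fun i => (if k = i then 1 else 0) - ν k * ν i) with hw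
      have hwi : ∀ i, w i = (if k = i then 1 else 0) - ν k * ν i := fun i => rfl
      have h1 : ∑ i, ν i * w i = 0 := by
        have e : ∀ i, ν i * w i = (if k = i then ν i else 0) - ν k * (ν i * ν i) := fun i => by
          rw [hwi]; split_ifs <;> ring
        simp only [e, Finset.sum_sub_distrib, ← Finset.mul_sum, hνν, Finset.sum_ite_eq,
          Finset.mem_univ, if_true]
        ring
      have h2 : ⟪y, w⟫ = 0 := by rw [hin, h1, mul_zero]
      have h3 := (quad hφ hr hx hC h2).2
      have h4 : ‖w‖ ^ 2 = 1 - ν k ^ 2 := by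
        rw [EuclideanSpace.real_norm_sq_eq]
        have e : ∀ i, w i ^ 2 = (if k = i then 1 - 2 * ν k * ν i else 0) +
            ν k ^ 2 * (ν i * ν i) := fun i => by
          rw [hwi]; split_ifs <;> ring
        simp only [e, Finset.sum_add_distrib, ← Finset.mul_sum, hνν, Finset.sum_ite_eq,
          Finset.mem_univ, if_true]
        ring
      have h5 : ∑ j, w j * ∑ i, w i * H φ i j x0 =
          H φ k k x0 - 2 * ν k * (∑ i, ν i * H φ i k x0) + ν k ^ 2 * N := by
        have e1 : ∀ j, ∑ i, w i * H φ i j x0 = H φ k j x0 - ν k * ∑ i, ν i * H φ i j x0 := by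
          intro j
          have e : ∀ i, w i * H φ i j x0 = (if k = i then H φ i j x0 else 0) -
              ν k * (ν i * H φ i j x0) := fun i => by
            rw [hwi]; split_ifs <;> ring
          simp only [e, Finset.sum_sub_distrib, ← Finset.mul_sum, Finset.sum_ite_eq,
            Finset.mem_univ, if_true]
        simp only [e1]
        have e : ∀ j, w j * (H φ k j x0 - ν k * ∑ i, ν i * H φ i j x0) =
            (if k = j then (H φ k j x0 - ν k * ∑ i, ν i * H φ i j x0) else 0) -
            ν k * (ν j * H φ k j x0) + ν k ^ 2 * (ν j * ∑ i, ν i * H φ i j x0) := fun j => by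
          rw [hwi]; split_ifs <;> ring
        simp only [e, Finset.sum_sub_distrib, Finset.sum_add_distrib, ← Finset.mul_sum,
          Finset.sum_ite_eq, Finset.mem_univ, if_true]
        have e2 : ∑ j, ν j * H φ k j x0 = ∑ i, ν i * H φ i k x0 :=
          Finset.sum_congr rfl fun i _ => by rw [H_symm hφ k i]
        have e3 : ∑ j, ν j * ∑ i, ν i * H φ i j x0 = N := by
          rw [hN]
          rw [Finset.sum_comm]
          refine Finset.sum_congr rfl fun j _ => ?_
          rw [Finset.mul_sum]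
          exact Finset.sum_congr rfl fun i _ => by ring
        rw [e2, e3]
        ring
      rw [← h5, h3, h4, hya]
      field_simp
    have hs := Finset.sum_congr (rfl : (Finset.univ : Finset (Fin n)) = Finset.univ)
      (fun k _ => hk k)
    simp only [Finset.sum_add_distrib, Finset.sum_sub_distrib] at hs
    have e4 : ∑ k, H φ k k x0 = L φ x0 := rfl
    have e5 : ∑ k, 2 * ν k * (∑ i, ν i * H φ i k x0) = 2 * N := by
      have e : ∀ k, 2 * ν k * (∑ i, ν i * H φ i k x0) =
          2 * ∑ i, H φ i k x0 * ν i * ν k := by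
        intro k
        rw [Finset.mul_sum, Finset.mul_sum]
        exact Finset.sum_congr rfl fun i _ => by ring
      simp only [e, ← Finset.mul_sum]
      rw [hN, Finset.sum_comm]
    have hν2 : ∑ i, ν i ^ 2 = 1 := by
      rw [← hνν]; exact Finset.sum_congr rfl fun i _ => by ring
    have e6 : ∑ k, ν k ^ 2 * N = N := by rw [← Finset.sum_mul, hν2, one_mul]
    have e7 : ∑ k : Fin n, (1 - ν k ^ 2) * a / r = (n - 1) * a / r := by
      rw [← Finset.sum_div, ← Finset.sum_mul, Finset.sum_sub_distrib, hν2]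
      simp
    rw [e4, e5, e6, e7] at hs
    linarith

end Vale.Agent.H247E
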